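import Vale.Agent.P366C.Capx
import Vale.Agent.P366C.Sup

/-!
# P210C: existence of graphs of prescribed mean curvature from estimates a priori
-/

open MeasureTheory Metric Filter Topology Set
open scoped ContDiff
open Vale.Agent.P366 hiding E
open Vale.Agent.P366.Stmt hiding Smooth up tr hess normSq scal mat chr covNorm pd
open Vale.Agent.P366M Vale.Agent.P366M.An Vale.Agent.P366M.Gr Vale.Agent.P366M.Y.C
open Vale.Agent.P272.K.LIN (Jet jet RSm CkFn Cov)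
open Vale.Agent.P366C (Aq Ar ar jc Sol Bl In qe0 J1 sol_smooth j1_bd holc)

set_option maxSynthPendingDepth 3

noncomputable section

namespace Vale.Agent.P210C

variable {n : ℕ} {X : Type} [Mf0 n X] {g : Fld n X} {x : X} {u w : X → ℝ}

attribute [local instance] rsm

/-- a nonlinear operator of first order with smooth coefficients -/
def Fo (F : (X → ℝ) → X → ℝ) : Prop := ∀ e ∈ At X,
  ∃ R : E n × ℝ × (E n →L[ℝ] ℝ) → ℝ, ContDiff ℝ ∞ R ∧ ∀ w : X → ℝ, CD 2 w → ∀ y,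
    R (y, w (e.symm y), fderiv ℝ (loc e w) y) = F w (e.symm y)

theorem hw_zero (g : Fld n X) (u : X → ℝ) : hw g (fun _ => 0) u = dv g (nv g u) := by
  funext x
  simp [hw, dn, ip, P366M.pd_const]

/-- **the principle of Leray and Schauder** for the mean curvature of graphs -/
theorem capA [CompactSpace X] (hn : 2 ≤ n) (hg : Met g) {F : (X → ℝ) → X → ℝ} (hF : Fo F) {ε C : ℝ}
    (ε0 : 0 < ε) (ap : ∀ σ ∈ Icc (0 : ℝ) 1, ∀ w, Smooth w →
      (∀ x, dv g (nv g w) x = ε * w x + σ * F w x) →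
      ∀ x, |w x| ≤ C ∧ gn g w x ≤ C ∧ |dv g (nv g w) x| ≤ C) :
    ∃ w, Smooth w ∧ ∀ x, dv g (nv g w) x = ε * w x + F w x := by
  obtain ⟨𝒞, -, -⟩ := Cov.exists_cov (E n) X ch (chart_mem_atlas _) mem_ch (fun _ => 1)
    (fun _ => one_pos) fun x y _ => mem_tgt (ch_mem x) y
  have he : ∀ i, 𝒞.e i ∈ At X := fun i => mem_At (𝒞.mem i)
  have hf : Smooth (fun _ : X => (0 : ℝ)) := cd_const
  choose R₀ hR₀ eR₀ using fun i => hF _ (he i)
  let A : Fin 𝒞.N → Ar (E n) → Jet (E n) →L[ℝ] ℝ := fun i q =>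
    Aq (rep (𝒞.e i) g) (loc (𝒞.e i) fun _ => 0) (q.2.1, q.2.2.2)
  let R : Fin 𝒞.N → Ar (E n) → ℝ := fun i q => R₀ i q.2
  have hA : ∀ i, ContDiff ℝ ∞ (A i) := fun i => (P366C.sm_Aq (hg.rep (he i)) (hf _ (he i))).comp
    (contDiff_snd.fst.prodMk contDiff_snd.snd.snd)
  have hR : ∀ i, ContDiff ℝ ∞ (R i) := fun i => (hR₀ i).comp contDiff_snd
  have ell : ∀ i q, A i q (1, 0, 0) = 0 ∧ ∀ ξ : E n →L[ℝ] ℝ, ξ ≠ 0 →
      0 < A i q (0, 0, ξ.smulRight ξ) := fun i q => P366C.Aq_ell (hg.rep (he i)) _ _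
  have eA : ∀ σ w v i y, CD 2 w → CAt 2 v ((𝒞.e i).symm y) → A i (ar 𝒞 σ w i y)
      (jet (loc (𝒞.e i) v) y) = Lm g (fun _ => 0) w v ((𝒞.e i).symm y) := by
    intro σ w v i y hw hv
    rw [← Aq_rep hg (he i) hf (fun x => hw.differentiable (by simp) x) hv]
    rfl
  have eR : ∀ σ w i y, CD 2 w → R i (ar 𝒞 σ w i y) = F w ((𝒞.e i).symm y) :=
    fun σ w i y hw => eR₀ i w hw y
  have eS : ∀ σ v, Smooth v → Sol 𝒞 A R ε σ v → ∀ x,
      dv g (nv g v) x = ε * v x + σ * F v x := fun σ v hv k x => by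
    obtain ⟨i, hi⟩ : ∃ i, In 𝒞 i x := ⟨_, P366C.in_idx 𝒞 x⟩
    have k1 := k i _ hi.2
    have k2 := eA σ v v i (𝒞.e i x) hv.two (hv.c2 _)
    rw [eR σ v i _ hv.two, show jc 𝒞 i v = jet (loc (𝒞.e i) v) from rfl, k2,
      (𝒞.e i).left_inv hi.1, Lm_self hg hf hv, hw_zero] at k1
    linarith
  choose L L0 hL using fun i => Lip2H.fderiv_cpt (hg.rep (he i))
    (isCompact_closedBall (𝒞.c i) (4 * 𝒞.r i))
  obtain ⟨L', L1, hL'⟩ := Cov.exists_le_all L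
  have W1 := abs_nonneg C
  choose γ γ0 hγ using fun i => holc hn (hg.rep (he i)) (hf _ (he i)) (𝒞.c i) (𝒞.r_pos i)
    ((L' + 1) * |C|)
  obtain ⟨Γ, Γ0, hΓ⟩ := Cov.exists_le_all fun i => (γ i)⁻¹
  have α0 : 0 < (Γ + 1)⁻¹ := by positivity
  have α1 : (Γ + 1)⁻¹ ≤ 1 := inv_le_one_of_one_le₀ (by linarith)
  have α2 : ∀ i, (Γ + 1)⁻¹ ≤ γ i := fun i => inv_le_of_inv_le₀ (γ0 i) (by linarith [hΓ i])
  generalize (Γ + 1)⁻¹ = α at α0 α1 α2
  choose K K0 hK using fun i => hγ i α α0 (α2 i)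
  obtain ⟨K', K1, hK'⟩ := Cov.exists_le_all K
  obtain ⟨S, hS'⟩ : ∃ S, S = (L' + 1) * |C| + K' := ⟨_, rfl⟩
  have q1 : 0 ≤ (L' + 1) * |C| := by positivity
  have q2 : |C| ≤ (L' + 1) * |C| := le_mul_of_one_le_left W1 (by linarith)
  have β0 := half_pos α0
  have β1 : α / 2 < 1 := by linarith
  obtain ⟨C₃, s3⟩ := j1_bd 𝒞 α0 α1 β0
  refine (qe0 𝒞 β0 (half_lt_self α0) α1 (A := A) (R := R)
    (fun i => (hA i).of_le one_le_oo) (fun i => (hR i).of_le one_le_oo) ell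
    (fun σ w v hw hv i k x hi hk => ?_) (fun σ w hw i k x hi hk => ?_) ε0
    (M₀ := C₃ * S) fun σ hσ v hv => ?_).elim fun v hv => ?_
  rotate_right
  · have sv := cd_of_ck le_rfl (sol_smooth 𝒞 β0 β1 hA hR ell hv)
    exact ⟨_, sv, by simpa using eS 1 _ sv hv⟩
  · have w2 := cd_of_ck two_le_oo hw
    have v2 := cd_of_ck two_le_oo hv
    refine (eA σ w v i _ w2 v2.contDiffAt).trans (.trans ?_ (eA σ w v k _ w2 v2.contDiffAt).symm)
    rw [(𝒞.e i).left_inv hi.1, (𝒞.e k).left_inv hk.1]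
  · have w2 := cd_of_ck two_le_oo hw
    refine (eR σ w i _ w2).trans (.trans ?_ (eR σ w k _ w2).symm)
    rw [(𝒞.e i).left_inv hi.1, (𝒞.e k).left_inv hk.1]
  have sv : Smooth (𝒞.fn v) := cd_of_ck le_rfl (sol_smooth 𝒞 β0 β1 hA hR ell hv)
  have k := ap σ hσ _ sv (eS σ _ sv hv)
  refine s3 v _ (by rw [hS']; positivity)
    (fun x => by linarith [(k x).1, le_abs_self C]) fun i y hy => ?_
  generalize 𝒞.fn v = z at sv k
  have k1 : ∀ y ∈ ball (𝒞.c i) (4 * 𝒞.r i), ‖fderiv ℝ (loc (𝒞.e i) z) y‖ ≤ (L' + 1) * |C| ∧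
      |P366P.hw (rep (𝒞.e i) g) (loc (𝒞.e i) fun _ => 0) (loc (𝒞.e i) z) y| ≤ (L' + 1) * |C| :=
    fun y hy => by
      have k2 := hL i y (ball_subset_closedBall hy) _ ((sv.diff _).lc (he i))
      rw [gn_rep (he i) g (sv.diff _)] at k2
      rw [← loc_hw hg (he i) hf sv, hw_zero]
      exact ⟨k2.trans (mul_le_mul (by linarith [hL' i]) ((k _).2.1.trans (le_abs_self C))
        (gn_nonneg _ _ _) (by linarith)), ((k _).2.2.trans (le_abs_self C)).trans q2⟩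
  exact ⟨(k1 y (closedBall_subset_ball (by linarith [𝒞.r_pos i]) hy)).1.trans (by linarith),
    fun y' hy' => (hK i _ (sv _ (he i)) k1 y hy y' hy').trans (mul_le_mul_of_nonneg_right
      (by linarith [hK' i]) (Real.rpow_nonneg (norm_nonneg _) _))⟩

end Vale.Agent.P210C
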