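import Vale.Agent.P366C.CapE

/-!
# P210C: the normal derivative of a forcing term at a critical point of `W`
-/

open MeasureTheory Metric Filter Topology Set
open scoped ContDiff
open Vale.Agent.P366.Stmt Vale.Agent.P366Z
open Vale.Agent.P366P Vale.Agent.P366Y.C

noncomputable section

namespace Vale.Agent.P210C

variable {n : ℕ} {G : Field n} {u : E n → ℝ} {y : E n}

/-- point, height, normal, `1 / W` -/
abbrev Qa (n : ℕ) := E n × ℝ × (Fin n → ℝ) × ℝ

/-- the arguments of a forcing term along the graph of `u` -/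
def arg (G : Field n) (u : E n → ℝ) (y : E n) : Qa n :=
  (y, u y, fun i => nv G u i y, (ww G 1 u y)⁻¹)

theorem nv_sq (hG : Met G) (u : E n → ℝ) (i : Fin n) (y : E n) : nv G u i y ^ 2 ≤ up G i i y := by
  have h1 := hG.up_cs y (Pi.single i 1) fun j => pd j u y
  have h2 := hG.up_nonneg y (Pi.single i 1)
  have h3 := w_pos hG u y
  simp only [Pi.single_apply, mul_ite, mul_one, mul_zero, ite_mul, zero_mul, Finset.sum_ite_eq',
    Finset.mem_univ, if_true, Finset.sum_ite_irrel, Finset.sum_const_zero] at h1 h2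
  rw [nv, div_pow, div_le_iff₀ (by positivity), w_sq hG]
  have h4 : gr G u i y ^ 2 ≤ up G i i y * ip G u u y := h1
  nlinarith

theorem winv_mem (hG : Met G) (u : E n → ℝ) (y : E n) : (ww G 1 u y)⁻¹ ∈ Icc (0 : ℝ) 1 :=
  ⟨inv_nonneg.2 (w_pos hG u y).le, inv_le_one_of_one_le₀ (GbH.one_le_ww hG 1 u y)⟩

theorem dn_fd (hG : Met G) {φ : E n → ℝ} (hφ : DifferentiableAt ℝ φ y) :
    dn G u φ y = fderiv ℝ φ y (WithLp.toLp 2 fun i => nv G u i y) := by
  rw [dn_eq hG, fderiv_eq_sum hφ]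
  exact Finset.sum_congr rfl fun i _ => mul_comm _ _

/-- the compact set of the arguments -/
theorem arg_cpt (hG : Met G) {K : Set (E n)} (hK : IsCompact K) (T : ℝ) : ∃ Q : Set (Qa n),
    IsCompact Q ∧ ∀ u, ∀ y ∈ K, |u y| ≤ T → arg G u y ∈ Q := by
  obtain ⟨B, hB⟩ := hK.exists_bound_of_continuousOn (f := fun y i => up G i i y)
    (continuous_pi fun i => (hG.sm_up i i).cont).continuousOn
  refine ⟨K ×ˢ Icc (-T) T ×ˢ closedBall 0 (|B| + 1) ×ˢ Icc 0 1, hK.prod (isCompact_Icc.prod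
    ((isCompact_closedBall _ _).prod isCompact_Icc)), fun u y hy h => ⟨hy, abs_le.1 h, ?_,
      winv_mem hG u y⟩⟩
  refine mem_closedBall_zero_iff.2 ((pi_norm_le_iff_of_nonneg (by positivity)).2 fun i => ?_)
  have h1 := (le_abs_self _).trans ((norm_le_pi_norm (fun i => up G i i y) i).trans (hB y hy))
  refine abs_le_of_sq_le_sq' ?_ (by positivity) |> abs_le.2
  show nv G u i y ^ 2 ≤ _
  nlinarith [nv_sq hG u i y, le_abs_self B, abs_nonneg B]

theorem dn_arg (hG : Met G) (hu : Smooth u) {Ψ : Qa n → ℝ}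
    (hΨ : DifferentiableAt ℝ Ψ (arg G u y)) (h0 : ∀ i, pd i (ww G 1 u) y = 0) :
    dn G u (fun z => Ψ (arg G u z)) y = fderiv ℝ Ψ (arg G u y) (WithLp.toLp 2 fun i => nv G u i y,
      0, fun i => -∑ j, ∑ k, chr G i j k y * nv G u j y * nv G u k y, 0) +
      dn G u u y * fderiv ℝ Ψ (arg G u y) (0, 1, 0, 0) := by
  have w0 := (w_pos hG u y).ne'
  have d1 := hu.diff y
  have d2 := fun i => (sm_nv hG hu i).diff y
  have d3 : DifferentiableAt ℝ (fun z => (ww G 1 u z)⁻¹) y := ((sm_w hG hu).diff y).fun_inv w0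
  have d4 : HasFDerivAt (arg G u) _ y := (hasFDerivAt_id y).prodMk (d1.hasFDerivAt.prodMk
    ((hasFDerivAt_pi.2 fun i => (d2 i).hasFDerivAt).prodMk d3.hasFDerivAt))
  have d5 : HasFDerivAt (fun z => Ψ (arg G u z)) _ y := hΨ.hasFDerivAt.comp y d4
  have e1 : ∀ i, dn G u (nv G u i) y = -∑ j, ∑ k, chr G i j k y * nv G u j y * nv G u k y := by
    intro i
    have h1 := acc_nv hG hu i y
    simp only [gr, pd_log ((sm_w hG hu).diff y) w0, h0, zero_div, mul_zero, Finset.sum_const_zero,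
      acc, cd, mul_add, Finset.sum_add_distrib, Finset.mul_sum] at h1
    rw [dn_eq hG, eq_neg_iff_add_eq_zero, ← h1]
    congr 1
    · exact Finset.sum_congr rfl fun j _ => mul_comm _ _
    · exact Finset.sum_congr rfl fun j _ => Finset.sum_congr rfl fun k _ => by ring
  have e2 : dn G u (fun z => (ww G 1 u z)⁻¹) y = 0 := by
    simp [dn_eq hG, pd_inv ((sm_w hG hu).diff y) w0, h0]
  rw [dn_fd hG d5.differentiableAt, d5.fderiv, ← smul_eq_mul, ← map_smul, ← map_add]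
  simp only [ContinuousLinearMap.comp_apply, ContinuousLinearMap.prod_apply,
    ContinuousLinearMap.id_apply]
  congr 1
  refine Prod.ext (by simp) (Prod.ext (by simp [dn_fd hG d1]) (Prod.ext ?_ ?_))
  · funext i
    simp [← e1, dn_fd hG (d2 i)]
  · simp [← dn_fd hG d3, e2]

/-- the estimate in a chart -/
theorem dn_bd (hG : Met G) {Ψ : Qa n → ℝ} (hΨ : ContDiff ℝ 1 Ψ) {K : Set (E n)} (hK : IsCompact K)
    (T : ℝ) (mono : ∀ y ξ s, s ∈ Icc (0 : ℝ) 1 → Monotone fun t => Ψ (y, t, ξ, s)) :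
    ∃ C, ∀ u, Smooth u → ∀ y ∈ K, |u y| ≤ T → |Ψ (arg G u y)| ≤ C ∧
      ((∀ i, pd i (ww G 1 u) y = 0) → -C ≤ dn G u (fun z => Ψ (arg G u z)) y) := by
  obtain ⟨Q, hQ, h⟩ := arg_cpt hG hK T
  have c1 : Continuous (fderiv ℝ Ψ) := hΨ.continuous_fderiv (by simp)
  have c2 := fun k i j => (hG.sm_chr k i j).cont
  obtain ⟨B₁, b1⟩ := hQ.exists_bound_of_continuousOn hΨ.continuous.continuousOn
  obtain ⟨B₂, b2⟩ := hQ.exists_bound_of_continuousOn (f := fun q : Qa n => fderiv ℝ Ψ q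
    (WithLp.toLp 2 q.2.2.1, 0, fun i => -∑ j, ∑ k, chr G i j k q.1 * q.2.2.1 j * q.2.2.1 k, 0))
    (c1.clm_apply (by fun_prop)).continuousOn
  refine ⟨|B₁| + |B₂|, fun u hu y hy hT => ⟨by
    linarith [b1 _ (h u y hy hT), le_abs_self B₁, abs_nonneg B₂,
      Real.norm_eq_abs (Ψ (arg G u y))], fun h0 => ?_⟩⟩
  have d := hΨ.differentiable (by simp) (arg G u y)
  have d1 : HasDerivAt (fun t => Ψ (y, t, fun i => nv G u i y, (ww G 1 u y)⁻¹))
      (fderiv ℝ Ψ (arg G u y) (0, 1, 0, 0)) (u y) :=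
    d.hasFDerivAt.comp_hasDerivAt (f := fun t : ℝ => ((y, t, fun i => nv G u i y,
      (ww G 1 u y)⁻¹) : Qa n)) (u y) ((hasDerivAt_const _ _).prodMk ((hasDerivAt_id _).prodMk
        (hasDerivAt_const _ _)))
  have d2 := d1.nonneg_of_monotone (mono _ _ _ (winv_mem hG u y))
  have d3 : 0 ≤ dn G u u y := div_nonneg (hG.ip_nonneg u y) (w_pos hG u y).le
  have d4 := abs_le.1 ((b2 _ (h u y hy hT)).trans (le_abs_self B₂))
  rw [dn_arg hG hu d h0]
  simp only [arg] at d4 d2 ⊢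
  nlinarith [mul_nonneg d3 d2, abs_nonneg B₁, d4.1]

end Vale.Agent.P210C
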