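import Vale.Agent.P210C.Abs
import Vale.Agent.P210C.Est

/-!
# P210C: graphs of prescribed mean curvature for a monotone forcing term
-/

open MeasureTheory Metric Filter Topology Set Matrix
open scoped ContDiff
open Vale.Agent.P366.Stmt (E)
open Vale.Agent.P366M Vale.Agent.P366M.An Vale.Agent.P366M.Gr Vale.Agent.P366M.Y.C

noncomputable section

namespace Vale.Agent.P210C

variable {n : ℕ} {X : Type} [Mf0 n X] {g : Fld n X} {x : X} {u w w' : X → ℝ} {e : Ch n X}
  {y : E n}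

/-- forcing terms; the arguments are the point, the height, the horizontal part of the normal (in
the preferred chart) and `1 / W` -/
abbrev Fc (n : ℕ) (X : Type) := X → ℝ → (Fin n → ℝ) → ℝ → ℝ

/-- a forcing term in the chart `e` -/
def lcF (e : Ch n X) (F : Fc n X) (q : Qa n) : ℝ :=
  F (e.symm q.1) q.2.1 (J e q.1 *ᵥ q.2.2.1) q.2.2.2

/-- the forcing term is smooth for the heights in `I` -/
def SmF (F : Fc n X) (I : Set ℝ) : Prop :=
  ∀ e ∈ At X, ∀ q : Qa n, q.2.1 ∈ I → ContDiffAt ℝ ∞ (lcF e F) q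

/-- the forcing term along the graph of `w` -/
def evF (g : Fld n X) (F : Fc n X) (w : X → ℝ) (x : X) : ℝ :=
  F x (w x) (fun i => nv g w i x) (ww g 1 w x)⁻¹

variable {F : Fc n X}

theorem loc_evF (he : e ∈ At X) (g : Fld n X) (F : Fc n X) (hw : ∀ x, DAt w x) :
    loc e (evF g F w) = fun y => lcF e F (arg (rep e g) (loc e w) y) := by
  funext y
  have h1 : repV e (nv g w) = P366P.nv (rep e g) (loc e w) := by
    unfold nv
    rw [repV_div, repV_gr he g hw, loc_ww he g 1 hw]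
    rfl
  have h2 : loc e (ww g 1 w) = P366Y.C.ww (rep e g) 1 (loc e w) := loc_ww he g 1 hw
  simp only [lcF, arg, ← h1, ← h2, repV_eq, mulVec_mulVec, J_mul_inv he, one_mulVec]
  rfl

theorem fo_evF (hg : Met g) (hF : SmF F univ) : Fo (evF g F) := fun e he => by
  have hG := hg.rep he
  have c : ContDiff ℝ ∞ fun q : E n × ℝ × (E n →L[ℝ] ℝ) => ((q.1, q.2.2) : P366C.Pq n) :=
    contDiff_fst.prodMk contDiff_snd.snd
  refine ⟨fun q => lcF e F (q.1, q.2.1, fun i => P366C.nq (rep e g) i (q.1, q.2.2),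
    (P366C.wq (rep e g) (q.1, q.2.2))⁻¹), (contDiff_iff_contDiffAt.2 fun q => hF e he q trivial).comp
    (contDiff_fst.prodMk (contDiff_snd.fst.prodMk ((contDiff_pi.2 fun i =>
      (P366C.sm_nq hG i).comp c).prodMk (((P366C.sm_wq hG).comp c).inv
        fun q => (P366C.wq_pos hG _).ne')))), fun w hw y => ?_⟩
  have d := fun x => hw.differentiable (by simp) x
  rw [← loc_apply (evF g F w), loc_evF he g F d]
  simp only [P366C.nq_eq ((d _).lc he), P366C.wq_eq ((d _).lc he)]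
  rfl

theorem sm_evF (hg : Met g) {I : Set ℝ} (hF : SmF F I) (hw : Smooth w) (h : ∀ x, w x ∈ I) :
    Smooth (evF g F w) := fun e he => by
  rw [loc_evF he g F hw.diff]
  have hG := hg.rep he
  refine contDiff_iff_contDiffAt.2 fun y => (hF e he (arg (rep e g) (loc e w) y) (h _)).comp y ?_
  exact (contDiff_id.prodMk ((hw e he).prodMk ((contDiff_pi.2 fun i =>
    P366P.sm_nv hG (hw e he) i).prodMk ((P366P.sm_w hG (hw e he)).inv
      fun q => (P366P.w_pos hG _ _).ne')))).contDiffAt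

/-! ### contact -/

theorem ww_eq (h : ∀ i, pd i w x = pd i w' x) : ww g 1 w x = ww g 1 w' x := by
  simp only [ww, ip, h]

theorem nv_eq (h : ∀ i, pd i w x = pd i w' x) (i : Fin n) : nv g w i x = nv g w' i x := by
  simp only [nv, gr, h, ww_eq h]

/-- **the comparison of the mean curvatures at a point of contact** -/
theorem touch (hg : Met g) (hw : Smooth w) (hw' : Smooth w')
    (h : IsLocalMax (fun y => w y - w' y) x) :
    (∀ i, pd i w x = pd i w' x) ∧ dv g (nv g w) x ≤ dv g (nv g w') x := by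
  have s : Smooth fun y => w y - w' y := CD.sub hw hw'
  have h0 := pd_of_isLocalMax h
  have h1 : ∀ i, pd i w x = pd i w' x := fun i => by
    have := h0 i
    rwa [pd_sub (hw.diff x) (hw'.diff x), sub_eq_zero] at this
  have h2 := lap_g hg hw (s.c2 x)
  have h3 := (met_g hg hw).lap_nonpos (s.c2 x) h
  rw [dn_eq hg] at h2
  simp only [h0, zero_mul, Finset.sum_const_zero, mul_zero, neg_zero, sub_eq_zero] at h2
  have h5 : gb g 1 w' x = gb g 1 w x := by funext i j; simp only [gb, h1]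
  have h4 : tr (gb g 1 w') (hess g w') x = tr (gb g 1 w) (hess g w') x := by
    simp only [tr, up, mat, h5]
  refine ⟨h1, ?_⟩
  rw [dv_nvm hg hw, dv_nvm hg hw', h4, ← ww_eq h1]
  refine div_le_div_of_nonneg_right ?_ (w_pos hg w x).le
  simp only [h2, tr, hess_sub (hw.c2 x) (hw'.c2 x), mul_sub, Finset.sum_sub_distrib] at h3
  exact sub_nonpos.1 h3

/-- the same for functions which are smooth near the point -/
theorem touch' (hg : Met g) (hw : ∀ᶠ z in 𝓝 x, CAt ∞ w z) (hw' : ∀ᶠ z in 𝓝 x, CAt ∞ w' z)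
    (h : IsLocalMax (fun y => w y - w' y) x) :
    (∀ i, pd i w x = pd i w' x) ∧ dv g (nv g w) x ≤ dv g (nv g w') x := by
  obtain ⟨v, sv, ev⟩ := exists_smooth (u := w) isCompact_singleton fun z hz => hz ▸ hw
  obtain ⟨v', sv', ev'⟩ := exists_smooth (u := w') isCompact_singleton fun z hz => hz ▸ hw'
  have e1 := ev x rfl
  have e2 := ev' x rfl
  have k := touch hg sv sv' (h.congr (e1.symm.sub e2.symm))
  rwa [dv_congr (nv_congr e1), dv_congr (nv_congr e2), forall_congr' fun i => by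
    rw [pd_congr e1, pd_congr e2]] at k

theorem hess_const (g : Fld n X) (c : ℝ) (x : X) (i j : Fin n) :
    hess g (fun _ => c) x i j = 0 := by
  simp [hess, pd2, pd_const, show loc (ch x) (fun _ : X => c) = fun _ => c from rfl,
    show ∀ j, P366.Stmt.pd j (fun _ : E n => c) = fun _ => 0 from
      fun j => funext (P366Z.pd_const c j), P366Z.pd_const]

theorem dv_const (hg : Met g) (c : ℝ) (x : X) : dv g (nv g fun _ => c) x = 0 := by
  rw [dv_nvm hg cd_const]
  simp [tr, hess_const]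

theorem evF_crit (h : ∀ i, pd i w x = 0) : evF g F w x = F x (w x) 0 1 := by
  simp [evF, nv, gr, ww, ip, h, ← Pi.zero_def]

theorem at_max (hg : Met g) (hw : Smooth w) (h : IsLocalMax w x) :
    dv g (nv g w) x ≤ 0 ∧ evF g F w x = F x (w x) 0 1 :=
  ⟨(touch hg hw (cd_const (c := 0)) (by simpa using h)).2.trans_eq (dv_const hg 0 x),
    evF_crit (pd_of_isLocalMax h)⟩

theorem at_min (hg : Met g) (hw : Smooth w) (h : IsLocalMin w x) :
    0 ≤ dv g (nv g w) x ∧ evF g F w x = F x (w x) 0 1 :=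
  ⟨(dv_const hg 0 x).symm.trans_le (touch hg (cd_const (c := 0)) hw (by simpa using h.neg)).2,
    evF_crit (pd_of_isLocalMin h)⟩

theorem winv (hg : Met g) (w : X → ℝ) (x : X) : (ww g 1 w x)⁻¹ ∈ Icc (0 : ℝ) 1 :=
  ⟨inv_nonneg.2 (w_pos hg w x).le, inv_le_one_of_one_le₀ (GbH.one_le_ww hg 1 w x)⟩

/-! ### estimates -/

theorem bd_of_loc {Y : Type} [TopologicalSpace Y] [CompactSpace Y] {P : Y → ℝ → Prop}
    (mono : ∀ x a b, a ≤ b → P x a → P x b) (h : ∀ x, ∃ C, ∀ᶠ y in 𝓝 x, P y C) :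
    ∃ C ≥ (0 : ℝ), ∀ x, P x C := by
  choose C h using h
  obtain ⟨t, -, ht⟩ := isCompact_univ.elim_nhds_subcover _ fun x _ => h x
  refine ⟨∑ x ∈ t, |C x|, by positivity, fun x => ?_⟩
  obtain ⟨z, hz, k⟩ := mem_iUnion₂.1 (ht (mem_univ x))
  exact mono x _ _ ((le_abs_self _).trans
    (Finset.single_le_sum (f := fun x => |C x|) (fun _ _ => abs_nonneg _) hz)) k

theorem evF_bd [CompactSpace X] (hg : Met g) (hF : SmF F univ) (T : ℝ)
    (mono : ∀ x ξ s, s ∈ Icc (0 : ℝ) 1 → Monotone fun t => F x t ξ s) :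
    ∃ C ≥ (0 : ℝ), ∀ x w, Smooth w → |w x| ≤ T → |evF g F w x| ≤ C ∧
      ((∀ i, pd i (ww g 1 w) x = 0) → -C ≤ dn g w (evF g F w) x) := by
  refine bd_of_loc (fun x a b hab h w hw hT => ⟨(h w hw hT).1.trans hab,
    fun k => (neg_le_neg hab).trans ((h w hw hT).2 k)⟩) fun x => ?_
  have he := ch_mem x
  obtain ⟨C, hC⟩ := dn_bd (hg.rep he) ((contDiff_iff_contDiffAt.2 fun q => hF _ he q trivial).of_le
    one_le_oo) (isCompact_closedBall (pt x) 1) T
    fun y ξ s hs => mono ((ch x).symm y) (J (ch x) y *ᵥ ξ) s hs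
  refine ⟨C, ev_pt.2 ?_⟩
  filter_upwards [closedBall_mem_nhds (pt x) one_pos] with y hy w hw hT
  have k := hC _ (hw _ he) y hy hT
  rw [← congrFun (loc_evF he g F hw.diff) y, ← loc_evF he g F hw.diff, ← loc_w he g hw,
    ← loc_dn he g hw (sm_evF hg hF hw fun _ => trivial).diff] at k
  exact ⟨k.1, fun h0 => k.2 fun i => by simp [pd_rep he ((sm_w hg hw).diff _), repC, h0]⟩

theorem ric_bd [CompactSpace X] (hg : Met g) :
    ∃ C ≥ (0 : ℝ), ∀ x w, |b2 g (ric g) w w x / ww g 1 w x ^ 2| ≤ C := by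
  obtain ⟨C, C0, h⟩ := exists_bd (hg.sm_normSq hg.sm_ric).cont.sqrt
  exact ⟨C, C0, fun x w => (b2_le hg ((RciH.sy_rc hg).sy x) w).trans ((le_abs_self _).trans (h x))⟩

/-- the equation of Jacobi at a maximum of `W` -/
theorem jac_max (hg : Met g) (hw : Smooth w) (h : IsLocalMax (ww g 1 w) x) :
    b2 g (ric g) w w x / ww g 1 w x ^ 2 + dn g w (dv g (nv g w)) x ≤ 0 := by
  have w0 := w_pos hg w
  have m1 : IsLocalMax (fun y => Real.log (ww g 1 w y)) x :=
    h.mono fun y hy => Real.log_le_log (w0 y) hy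
  have sl : Smooth fun y => Real.log (ww g 1 w y) := CD.log (sm_w hg hw) fun y => (w0 y).ne'
  have j := jac_m (f := fun _ => 0) hg cd_const hw x
  have j1 := (met_g hg hw).lap_nonpos (sl.c2 x) m1
  have j3 := (met_g hg hw).ip_nonneg (fun y => Real.log (ww g 1 w y)) x
  have j4 := a2_nonneg hg hw x
  have j5 : b2 g (hess g fun _ => 0) w w x = 0 := by simp [b2, hess_const]
  rw [hw_zero, ip_const_left, j5, zero_div] at j
  linarith

/-- **the gradient estimate** -/
theorem grad_bd [CompactSpace X] (hg : Met g) (hF : SmF F univ) (T : ℝ)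
    (mono : ∀ x ξ s, s ∈ Icc (0 : ℝ) 1 → Monotone fun t => F x t ξ s) :
    ∃ C ≥ (0 : ℝ), ∀ ε > (0 : ℝ), ∀ σ ∈ Icc (0 : ℝ) 1, ∀ w, Smooth w → (∀ x, |w x| ≤ T) →
      (∀ x, dv g (nv g w) x = ε * w x + σ * evF g F w x) →
      ∀ x, ww g 1 w x ≤ 1 + C / ε ∧ |evF g F w x| ≤ C := by
  obtain ⟨C₁, C1, h1⟩ := evF_bd hg hF T mono
  obtain ⟨C₂, C2, h2⟩ := ric_bd hg
  refine ⟨C₁ + C₂, by positivity, fun ε ε0 σ hσ w hw hT eq x =>
    ⟨?_, (h1 x w hw (hT x)).1.trans (by linarith)⟩⟩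
  obtain ⟨p, -, hp⟩ := isCompact_univ.exists_isMaxOn univ_nonempty (sm_w hg hw).cont.continuousOn
  have m := hp.isLocalMax univ_mem
  have j := jac_max hg hw m
  have j1 := (h1 p w hw (hT p)).2 (pd_of_isLocalMax m)
  rw [funext eq, dn_lin (s := ε) (t := σ) (w := w) (ζ := evF g F w) fun i => by
    rw [pd_add ((hw.diff p).const_mul ε)
      (((sm_evF hg hF hw fun _ => trivial).diff p).const_mul σ), pd_const_mul, pd_const_mul],
    dn_self hg] at j
  refine (hp (mem_univ x)).trans ?_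
  rw [← sub_le_iff_le_add', le_div_iff₀ ε0]
  nlinarith [(abs_le.1 (h2 p w)).1, mul_le_mul_of_nonneg_left j1 hσ.1, hσ.2, (winv hg w p).2]

/-- existence for a forcing term which is smooth and monotone for all heights -/
theorem capB [CompactSpace X] (hn : 2 ≤ n) (hg : Met g) (hF : SmF F univ) {ε a b : ℝ} (ε0 : 0 < ε)
    (mono : ∀ x ξ s, s ∈ Icc (0 : ℝ) 1 → Monotone fun t => F x t ξ s)
    (lo : ∀ x, ε * a + F x a 0 1 ≤ 0) (hi : ∀ x, 0 ≤ ε * b + F x b 0 1) :
    ∃ w, Smooth w ∧ (∀ x, w x ∈ Icc a b) ∧ ∀ x, dv g (nv g w) x = ε * w x + evF g F w x := by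
  have i1 : (1 : ℝ) ∈ Icc (0 : ℝ) 1 := ⟨zero_le_one, le_rfl⟩
  have sup : ∀ σ ∈ Icc (0 : ℝ) 1, ∀ w, Smooth w →
      (∀ x, dv g (nv g w) x = ε * w x + σ * evF g F w x) →
      ∀ x, min a (σ * a) ≤ w x ∧ w x ≤ max b (σ * b) := fun σ hσ w hw eq x => by
    obtain ⟨p, -, hp⟩ := isCompact_univ.exists_isMaxOn univ_nonempty hw.cont.continuousOn
    obtain ⟨q, -, hq⟩ := isCompact_univ.exists_isMinOn univ_nonempty hw.cont.continuousOn
    obtain ⟨k1, k2⟩ := at_max (F := F) hg hw (hp.isLocalMax univ_mem)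
    obtain ⟨k3, k4⟩ := at_min (F := F) hg hw (hq.isLocalMin univ_mem)
    rw [eq, k2] at k1
    rw [eq, k4] at k3
    refine ⟨le_trans ?_ (hq (mem_univ x)), (hp (mem_univ x)).trans ?_⟩
    · rcases le_total a (w q) with k | k
      · exact min_le_of_left_le k
      · have := mul_le_mul_of_nonneg_left (mono q 0 1 i1 k) hσ.1
        exact min_le_of_right_le (le_of_mul_le_mul_left
          (by nlinarith [mul_le_mul_of_nonneg_left (lo q) hσ.1]) ε0)
    · rcases le_total (w p) b with k | k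
      · exact le_max_of_le_left k
      · have := mul_le_mul_of_nonneg_left (mono p 0 1 i1 k) hσ.1
        exact le_max_of_le_right (le_of_mul_le_mul_left
          (by nlinarith [mul_le_mul_of_nonneg_left (hi p) hσ.1]) ε0)
  obtain ⟨C, C0, h⟩ := grad_bd hg hF (|a| + |b|) mono
  have p1 : 0 ≤ C / ε := by positivity
  have p2 : 0 ≤ ε * (|a| + |b|) := by positivity
  obtain ⟨w, hw, eq⟩ := capA hn hg (fo_evF hg hF)
    (C := |a| + |b| + (1 + C / ε) + (ε * (|a| + |b|) + C)) ε0 fun σ hσ w hw eq x => by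
      have a0 := abs_nonneg a
      have b0 := abs_nonneg b
      have σ1 : ∀ t : ℝ, |σ * t| ≤ |t| := fun t => by
        rw [abs_mul, abs_of_nonneg hσ.1]; exact mul_le_of_le_one_left (abs_nonneg _) hσ.2
      have k : ∀ x, |w x| ≤ |a| + |b| := fun x => abs_le.2
        ⟨le_trans (le_min (by linarith [neg_abs_le a])
          (by linarith [neg_abs_le (σ * a), σ1 a])) (sup σ hσ w hw eq x).1,
        (sup σ hσ w hw eq x).2.trans (max_le (by linarith [le_abs_self b])
          (by linarith [le_abs_self (σ * b), σ1 b]))⟩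
      obtain ⟨k1, k2⟩ := h ε ε0 σ hσ w hw k eq x
      refine ⟨by linarith [k x], by linarith [gn_le_w hg w x], ?_⟩
      have k3 : |ε * w x| ≤ ε * (|a| + |b|) := by
        rw [abs_mul, abs_of_pos ε0]; exact mul_le_mul_of_nonneg_left (k x) ε0.le
      rw [eq]
      linarith [abs_add_le (ε * w x) (σ * evF g F w x), σ1 (evF g F w x)]
  exact ⟨w, hw, fun x => by simpa using sup 1 i1 w hw (by simpa using eq) x, eq⟩

end Vale.Agent.P210C
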