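import Vale.Agent.P210C.Est
import Vale.Agent.P366W.Ureg
import Vale.Agent.P366P.Cv

/-!
# P210C: uniform convergence of solutions with bounded gradients is smooth convergence
-/

open MeasureTheory Metric Filter Topology Set
open scoped ContDiff
open Vale.Agent.P366.Stmt Vale.Agent.P366Z Vale.Agent.P366Y
open Vale.Agent.P366P Vale.Agent.P366Y.C Vale.Agent.P366W Vale.Agent.P366C

noncomputable section

namespace Vale.Agent.P210C

section Gen

variable {ι X V : Type} [NormedAddCommGroup X] [NormedSpace ℝ X] [NormedAddCommGroup V]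
  [NormedSpace ℝ V] {α : ℝ} {l : Filter ι} {x : X} {f : ι → X → V}

theorem td_fderiv (α0 : 0 < α) (h : LH α l x 1 f) {s : Set X} (hs : s ∈ 𝓝 x)
    (hu : ∀ δ > (0 : ℝ), ∀ᶠ i in l, ∀ y ∈ s, ‖f i y‖ ≤ δ) :
    Tendsto (fun p : ι × X => fderiv ℝ (f p.1) p.2) (l ×ˢ 𝓝 x) (𝓝 0) := by
  obtain ⟨-, A, A0, hA⟩ := h.2
  obtain ⟨r₁, r1, h1⟩ := ev_ball2 (P := fun i y z => ‖fderiv ℝ (f i) y - fderiv ℝ (f i) z‖ ≤
    A * ‖y - z‖ ^ α) (hA.mono fun _ a => a.2)
  obtain ⟨r₂, r2, h2⟩ := ev_ball (P := fun i y => DifferentiableAt ℝ (f i) y ∧ y ∈ s)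
    (h.sm.diff.and (tendsto_snd.eventually hs))
  obtain ⟨r, r0, r3, r4⟩ : ∃ r > (0 : ℝ), 2 * r ≤ r₁ ∧ 2 * r ≤ r₂ := ⟨min r₁ r₂ / 2, by positivity,
    by linarith [min_le_left r₁ r₂], by linarith [min_le_right r₁ r₂]⟩
  refine Metric.tendsto_nhds.2 fun ε ε0 => ev_of_ball
    (P := fun i y => dist (fderiv ℝ (f i) y) 0 < ε) (ball_mem_nhds x r0) ?_
  obtain ⟨t, t0, t1, t2⟩ : ∃ t > (0 : ℝ), t ≤ r ∧ A * t ^ α ≤ ε / 4 := by
    have c : Tendsto (fun t : ℝ => A * t ^ α) (𝓝 0) (𝓝 (A * (0 : ℝ) ^ α)) :=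
      ((Real.continuousAt_rpow_const 0 α (Or.inr α0.le)).tendsto).const_mul A
    rw [Real.zero_rpow α0.ne', mul_zero] at c
    obtain ⟨t, a, b⟩ := (((c.eventually (ge_mem_nhds (show 0 < ε / 4 by positivity))).and
      (ge_mem_nhds r0)).filter_mono (nhdsWithin_le_nhds (s := Ioi 0))).and
      self_mem_nhdsWithin |>.exists
    exact ⟨t, b, a.2, a.1⟩
  filter_upwards [h1, h2, hu (ε * t / 8) (by positivity)] with i a b c y hy
  have s1 : closedBall y t ⊆ ball x (2 * r) := closedBall_subset_ball' (by linarith [mem_ball.1 hy])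
  have y0 := mem_closedBall_self (x := y) t0.le
  rw [dist_zero_right]
  refine (ContinuousLinearMap.opNorm_le_of_unit_norm (C := ε / 2) (by positivity)
    fun v hv => ?_).trans_lt (by linarith)
  have y1 : y + t • v ∈ closedBall y t := by simp [norm_smul, hv, abs_of_pos t0]
  have a1 := (convex_closedBall y t).norm_image_sub_le_of_norm_fderiv_le' (C := A * t ^ α)
    (φ := fderiv ℝ (f i) y) (fun z hz => (b z (ball_subset_ball r4 (s1 hz))).1)
    (fun z hz => (a z (ball_subset_ball r3 (s1 hz)) y (ball_subset_ball r3 (s1 y0))).trans (by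
      gcongr; exact mem_closedBall_iff_norm.1 hz)) y0 y1
  have a2 := c _ (b _ (ball_subset_ball r4 (s1 y0))).2
  have a3 := c _ (b _ (ball_subset_ball r4 (s1 y1))).2
  rw [add_sub_cancel_left, map_smul, norm_smul, hv, Real.norm_of_nonneg t0.le] at a1
  have a4 := norm_sub_le (f i (y + t • v) - f i y) (f i (y + t • v) - f i y - t • fderiv ℝ (f i) y v)
  rw [sub_sub_cancel, norm_smul, Real.norm_of_nonneg t0.le] at a4
  refine le_of_mul_le_mul_left ?_ t0
  nlinarith [norm_sub_le (f i (y + t • v)) (f i y), mul_le_mul_of_nonneg_right t2 t0.le]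

/-- families which depend smoothly on a parameter -/
theorem ub_par {P : Type} [NormedAddCommGroup P] [NormedSpace ℝ P] {B : P × X → V} {π : ι → P}
    {o : P} (hπ : Tendsto π l (𝓝 o)) (hB : ∀ᶠ q in 𝓝 (o, x), ContDiffAt ℝ ∞ B q) :
    UB l x fun i y => B (π i, y) :=
  UB.comp (a := fun _ => B) (J := fun i y => (π i, y)) (ub_smooth hB)
    ((ub_const ((hπ.norm.eventually (gt_mem_nhds (lt_add_one _))).mono fun _ a => a.le)).prodMk
      (ub_smooth (.of_forall fun _ => contDiffAt_id)))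
    (by rw [nhds_prod_eq]; exact (hπ.comp tendsto_fst).prodMk tendsto_snd)

end Gen

variable {n : ℕ} {G : Field n} {ι : Type} {l : Filter ι} {o : ι} {x : E n} {u : ι → E n → ℝ}

/-- the covector of a vector -/
def cov (ξ : E n) : E n →L[ℝ] ℝ := InnerProductSpace.toDual ℝ (E n) ξ

theorem cov_grad (f : E n → ℝ) (y : E n) : cov (gradient f y) = fderiv ℝ f y := by
  simp [cov, gradient]

theorem sm_cov : ContDiff ℝ ∞ (cov : E n → _) :=
  (InnerProductSpace.toDual ℝ (E n)).toContinuousLinearEquiv.contDiff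

/-- **smooth convergence** -/
theorem cv_cap (hn : 2 ≤ n) (hG : Met G) (ho : pure o ≤ l) (hu : ∀ᶠ i in l, Smooth (u i))
    {Ψ : ι → Qa n → ℝ} (hΨ : UB l (arg G (u o) x) Ψ)
    (eq : ∀ᶠ p in l ×ˢ 𝓝 x, dv G (nv G (u p.1)) p.2 = Ψ p.1 (arg G (u p.1) p.2)) {r D : ℝ}
    (r0 : 0 < r) (bd : ∀ᶠ i in l, ∀ y ∈ ball x (4 * r), ‖fderiv ℝ (u i) y‖ ≤ D ∧
      |dv G (nv G (u i)) y| ≤ D)
    (c0 : ∀ δ > (0 : ℝ), ∀ᶠ i in l, ∀ y ∈ ball x r, |u i y - u o y| ≤ δ) (m : ℕ) :
    Cv l o m u x := by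
  have so : Smooth (u o) := hu.filter_mono ho
  have hz : ∀ v y, hw G (fun _ => 0) v y = dv G (nv G v) y := fun v y => by
    simp [hw_eq hG, dn, ip, pd_const]
  obtain ⟨θ, θ0, hθ⟩ := holc hn hG (φ := fun _ => 0) contDiff_const x r0 D
  obtain ⟨K, K0, hK⟩ := hθ (min θ (1 / 2)) (by positivity) (min_le_left _ _)
  have hα : min θ (1 / 2) ∈ Ioo (0 : ℝ) 1 :=
    ⟨by positivity, (min_le_right _ _).trans_lt (by norm_num)⟩
  generalize min θ (1 / 2) = α at hK hα
  have b0 := ball_mem_nhds x r0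
  have s1 : ball x r ⊆ ball x (4 * r) := ball_subset_ball (by linarith)
  have s2 : ball x r ⊆ closedBall x (3 * r) :=
    ball_subset_closedBall.trans (closedBall_subset_closedBall (by linarith))
  have sm : SM l x u := (tendsto_fst.eventually hu).mono fun _ h => h.contDiffAt
  have un : TendstoUniformlyOn u (u o) l (ball x r) := Metric.tendstoUniformlyOn_iff.2 fun δ δ0 =>
    (c0 _ (half_pos δ0)).mono fun i h y hy => by
      rw [dist_comm, Real.dist_eq]; linarith [h y hy]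
  have t0 := tendsto_of_unif b0 un so.cont.continuousAt
  have l1 : LH α l x 1 u := ⟨L0.of_bd hα.2.le sm
    ((t0.norm.eventually (gt_mem_nhds (lt_add_one _))).mono fun _ a => a.le)
    (ev_of_ball (P := fun i y => ‖fderiv ℝ (u i) y‖ ≤ D) b0 (bd.mono fun i h y hy => (h y (s1 hy)).1)),
    sm.fderiv, |D| + K, by positivity, ev_of_ball2 (P := fun i y z => ‖fderiv ℝ (u i) y‖ ≤ |D| + K ∧
      ‖fderiv ℝ (u i) y - fderiv ℝ (u i) z‖ ≤ (|D| + K) * ‖y - z‖ ^ α) b0
      ((bd.and hu).mono fun i h y hy z hz' => ⟨by linarith [(h.1 y (s1 hy)).1, le_abs_self D],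
        (hK _ h.2 (by simpa only [hz] using h.1) y (s2 hy) z (s2 hz')).trans
          (mul_le_mul_of_nonneg_right (by linarith [abs_nonneg D]) (by positivity))⟩)⟩
  have uo : UB l x fun _ => u o := ub_smooth (.of_forall fun _ => so.contDiffAt)
  have t1 := td_fderiv hα.1 (l1.sub (uo.lh hα.2.le 1)) b0 c0
  have t2 : Tendsto (fun p : ι × E n => fderiv ℝ (u p.1) p.2) (l ×ˢ 𝓝 x)
      (𝓝 (fderiv ℝ (u o) x)) := by
    have := t1.add (((so.continuous_fderiv (by simp)).tendsto x).comp tendsto_snd)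
    rw [zero_add] at this
    refine this.congr' (sm.diff.mono fun p a => ?_)
    rw [Function.comp_apply, fderiv_fun_sub a (so.diff _), sub_add_cancel]
  have t3 : Tendsto (fun p : ι × E n => (p.2, u p.1 p.2, gradient (u p.1) p.2)) (l ×ˢ 𝓝 x)
      (𝓝 (x, u o x, gradient (u o) x)) := tendsto_snd.prodMk_nhds (t0.prodMk_nhds
    (((InnerProductSpace.toDual ℝ (E n)).symm.continuous.tendsto _).comp t2))
  have c1 : ContDiff ℝ ∞ fun j : E n × ℝ × E n => ((j.1, cov j.2.2) : Pq n) :=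
    contDiff_fst.prodMk (sm_cov.comp contDiff_snd.snd)
  have c2 : ContDiff ℝ ∞ fun j : E n × ℝ × E n => aq G (j.1, cov j.2.2) :=
    contDiff_pi.2 fun i => contDiff_pi.2 fun k => (sm_aq hG i k).comp c1
  have c3 : ContDiff ℝ ∞ fun j : E n × ℝ × E n => ((j.1, j.2.1, fun i => nq G i (j.1, cov j.2.2),
      (wq G (j.1, cov j.2.2))⁻¹) : Qa n) := contDiff_fst.prodMk (contDiff_snd.fst.prodMk
    ((contDiff_pi.2 fun i => (sm_nq hG i).comp c1).prodMk (((sm_wq hG).comp c1).inv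
      fun _ => (wq_pos hG _).ne')))
  have c4 : ContDiff ℝ ∞ fun j : E n × ℝ × E n => ∑ i, ∑ k, aq G (j.1, cov j.2.2) i k *
      ∑ m, chr G m i k j.1 * pq (j.1, cov j.2.2) m :=
    ContDiff.sum fun i _ => ContDiff.sum fun k _ => ((sm_aq hG i k).comp c1).mul
      (ContDiff.sum fun m _ => (ContDiff.comp (hG.sm_chr m i k) contDiff_fst).mul
        ((sm_pq m).comp c1))
  have e1 : ∀ {v : E n → ℝ} {y}, DifferentiableAt ℝ v y → ((y, v y, fun i => nq G i
      (y, cov (gradient v y)), (wq G (y, cov (gradient v y)))⁻¹) : Qa n) = arg G v y := fun h => by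
    simp only [cov_grad, nq_eq h, wq_eq h, arg]
  have hb : UB l (x, u o x, gradient (u o) x) fun i (j : E n × ℝ × E n) => Ψ i (j.1, j.2.1,
      fun i => nq G i (j.1, cov j.2.2), (wq G (j.1, cov j.2.2))⁻¹) :=
    UB.comp hΨ (ub_smooth (.of_forall fun _ => c3.contDiffAt)) (by
      rw [← e1 (so.diff x)]; exact (c3.continuous.tendsto _).comp tendsto_snd)
  obtain ⟨Λ, hΛ⟩ := el_of_lim ((c2.continuous.tendsto _).comp t3)
    (.of_forall fun p => aq_sy hG _) fun ξ hξ => aq_pos hG _ hξ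
  have key := ureg hα (a := fun _ j => aq G (j.1, cov j.2.2)) l1
    (ub_smooth (.of_forall fun _ => c2.contDiffAt))
    ((hb.mul (ub_smooth (.of_forall fun _ => ((sm_wq hG).comp c1).contDiffAt))).add
      (ub_smooth (.of_forall fun _ => c4.contDiffAt))) t3 hΛ (by
        filter_upwards [eq, tendsto_fst.eventually hu] with p a b
        have d := b.diff p.2
        have h1 := Aq_hw (φ := fun _ => 0) (y := p.2) hG b
        rw [Aq_apply, div_eq_iff (wq_pos hG _).ne', hz, a] at h1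
        simp only [P272.K.LIN.jet, ← pd_pd_eq (b.c2 p.2), ← pd_eq d, mul_sub,
          Finset.sum_sub_distrib, pd_const, mul_zero, zero_mul, Finset.sum_const_zero,
          add_zero] at h1
        simp only [e1 d, Function.comp_apply]
        simp only [cov_grad, pq_eq d, pr2, D2]
        linarith)
  exact cv_of_iter ho sm fun j _ => key.cvg (.of_forall fun _ => so.contDiffAt) b0 un j

end Vale.Agent.P210C
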