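import Vale.Agent.P210C.Main
import Vale.Agent.P210C.Reg

/-!
# P210C: the solutions depend continuously on a parameter, with all derivatives
-/

open MeasureTheory Metric Filter Topology Set Matrix
open scoped ContDiff
open Vale.Agent.P366.Stmt (E)
open Vale.Agent.P366M Vale.Agent.P366M.An Vale.Agent.P366M.Gr Vale.Agent.P366M.Y.C
open Vale.Agent.P210G
open Vale.Agent.P366P (Cv CvT ev_cpt)

noncomputable section

namespace Vale.Agent.P210C

/-- the estimate in a chart, uniformly in a parameter -/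
theorem dn_bd2 {n : ℕ} {G : P366.Stmt.Field n} (hG : P366Z.Met G) {Ψ : ℝ × Qa n → ℝ}
    (hΨ : ContDiff ℝ 1 Ψ) {K : Set (E n)} (hK : IsCompact K) (T : ℝ) {S : Set ℝ} (hS : IsCompact S)
    (mono : ∀ p ∈ S, ∀ y ξ s, s ∈ Icc (0 : ℝ) 1 → Monotone fun t => Ψ (p, y, t, ξ, s)) :
    ∃ C, ∀ p ∈ S, ∀ u, P366.Stmt.Smooth u → ∀ y ∈ K, |u y| ≤ T → |Ψ (p, arg G u y)| ≤ C ∧
      ((∀ i, P366.Stmt.pd i (P366Y.C.ww G 1 u) y = 0) →
        -C ≤ P366P.dn G u (fun z => Ψ (p, arg G u z)) y) := by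
  obtain ⟨Q, hQ, h⟩ := arg_cpt hG hK T
  have c1 : Continuous (fderiv ℝ Ψ) := hΨ.continuous_fderiv (by simp)
  have c2 := fun k i j => (hG.sm_chr k i j).cont
  obtain ⟨B₁, b1⟩ := (hS.prod hQ).exists_bound_of_continuousOn hΨ.continuous.continuousOn
  obtain ⟨B₂, b2⟩ := (hS.prod hQ).exists_bound_of_continuousOn (f := fun q : ℝ × Qa n =>
    fderiv ℝ Ψ q (0, WithLp.toLp 2 q.2.2.2.1, 0, fun i => -∑ j, ∑ k,
      P366.Stmt.chr G i j k q.2.1 * q.2.2.2.1 j * q.2.2.2.1 k, 0))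
    (c1.clm_apply (by fun_prop)).continuousOn
  refine ⟨|B₁| + |B₂|, fun p hp u hu y hy hT => ⟨by
    linarith [b1 (p, arg G u y) ⟨hp, h u y hy hT⟩, le_abs_self B₁, abs_nonneg B₂,
      Real.norm_eq_abs (Ψ (p, arg G u y))], fun h0 => ?_⟩⟩
  have d : HasFDerivAt (fun q => Ψ (p, q)) ((fderiv ℝ Ψ (p, arg G u y)).comp
      (ContinuousLinearMap.inr ℝ ℝ (Qa n))) (arg G u y) :=
    (hΨ.differentiable (by simp) _).hasFDerivAt.comp _ (hasFDerivAt_prodMk_right p _)
  have d1 : HasDerivAt (fun t => Ψ (p, y, t, fun i => P366P.nv G u i y, (P366Y.C.ww G 1 u y)⁻¹))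
      _ (u y) := d.comp_hasDerivAt (f := fun t : ℝ => ((y, t, fun i => P366P.nv G u i y,
      (P366Y.C.ww G 1 u y)⁻¹) : Qa n)) (u y) ((hasDerivAt_const _ _).prodMk
        ((hasDerivAt_id _).prodMk (hasDerivAt_const _ _)))
  have d2 := d1.nonneg_of_monotone (mono p hp _ _ _ (winv_mem hG u y))
  have d3 : 0 ≤ P366P.dn G u u y := div_nonneg (hG.ip_nonneg u y) (P366P.w_pos hG u y).le
  have d4 := abs_le.1 ((b2 (p, _) ⟨hp, h u y hy hT⟩).trans (le_abs_self B₂))
  rw [dn_arg (Ψ := fun q => Ψ (p, q)) hG hu d.differentiableAt h0, d.fderiv]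
  have d5 := mul_nonneg d3 d2
  simp only [arg, ContinuousLinearMap.comp_apply, ContinuousLinearMap.inr_apply] at d4 d5 ⊢
  exact le_add_of_le_of_nonneg (by linarith [abs_nonneg B₁, d4.1]) d5

variable {n : ℕ} {X : Type} [Mf0 n X] {g : Fld n X} {x : X} {F : ℝ → Fc n X}
  {v : Fin n → X → ℝ} {I S : Set ℝ} {H : ℝ → X → ℝ → ℝ → ℝ} {w : ℝ → X → ℝ} {o : ℝ}

/-- the forcing term depends smoothly on the parameter -/
def SmFP (F : ℝ → Fc n X) (I : Set ℝ) : Prop := ∀ e ∈ At X, ∀ q : ℝ × Qa n, q.2.2.1 ∈ I →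
  ContDiffAt ℝ ∞ (fun q : ℝ × Qa n => lcF e (F q.1) q.2) q

theorem SmFP.at (h : SmFP F I) (p : ℝ) : SmF (F p) I := fun e he q hq =>
  (h e he (p, q) hq).comp q (contDiffAt_const.prodMk contDiffAt_id)

/-- convergence of functions with `m` derivatives in all charts -/
def CvF {ι : Type} (l : Filter ι) (o : ι) (m : ℕ) (U : ι → X → ℝ) : Prop :=
  ∀ e ∈ At X, ∀ y, Cv l o m (fun i => loc e (U i)) y

theorem ev_chart {ι : Type} {l : Filter ι} {P : ι → X → Prop}
    (h : ∀ᶠ p in l ×ˢ 𝓝 (pt x), P p.1 ((ch x).symm p.2)) : ∀ᶠ p in l ×ˢ 𝓝 x, P p.1 p.2 := by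
  obtain ⟨pa, ha, pb, hb, H⟩ := eventually_prod_iff.1 h
  refine eventually_prod_iff.2 ⟨pa, ha, fun z => z ∈ (ch x).source ∧ pb (ch x z), ev_pt.2 ?_,
    fun h1 z h2 => by simpa only [(ch x).left_inv h2.1] using H h1 h2.2⟩
  filter_upwards [hb] with y hy using ⟨symm_mem (ch_mem x) y, by rwa [right_inv (ch_mem x)]⟩

theorem contB [CompactSpace X] (hn : 2 ≤ n) (hg : Met g) (hF : SmFP F univ) {ε T : ℝ} (ε0 : 0 < ε)
    (hS : IsCompact S) (ho : o ∈ S)
    (mono : ∀ p ∈ S, ∀ x ξ s, s ∈ Icc (0 : ℝ) 1 → Monotone fun t => F p x t ξ s)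
    (hw : ∀ p ∈ S, Smooth (w p)) (hT : ∀ p ∈ S, ∀ x, |w p x| ≤ T)
    (eq : ∀ p ∈ S, ∀ x, dv g (nv g (w p)) x = ε * w p x + evF g (F p) (w p) x) (m : ℕ) :
    CvF (𝓝[S] o) o m w := by
  have sF : ∀ e ∈ At X, ContDiff ℝ ∞ fun q : ℝ × Qa n => lcF e (F q.1) q.2 := fun e he =>
    contDiff_iff_contDiffAt.2 fun q => hF e he q trivial
  obtain ⟨C₁, C1, h1⟩ : ∃ C ≥ (0 : ℝ), ∀ x, ∀ p ∈ S, ∀ u, Smooth u → |u x| ≤ T →
      |evF g (F p) u x| ≤ C ∧ ((∀ i, pd i (ww g 1 u) x = 0) → -C ≤ dn g u (evF g (F p) u) x) := by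
    refine bd_of_loc (fun x a b hab h p hp w hw hT => ⟨(h p hp w hw hT).1.trans hab,
      fun k => (neg_le_neg hab).trans ((h p hp w hw hT).2 k)⟩) fun x => ?_
    have he := ch_mem x
    obtain ⟨C, hC⟩ := dn_bd2 (hg.rep he) ((sF _ he).of_le one_le_oo)
      (isCompact_closedBall (pt x) 1) T hS
      fun p hp y ξ s hs => mono p hp ((ch x).symm y) (J (ch x) y *ᵥ ξ) s hs
    refine ⟨C, ev_pt.2 ?_⟩
    filter_upwards [closedBall_mem_nhds (pt x) one_pos] with y hy p hp w hw hT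
    have k := hC p hp _ (hw _ he) y hy hT
    rw [← congrFun (loc_evF he g (F p) hw.diff) y, ← loc_evF he g (F p) hw.diff, ← loc_w he g hw,
      ← loc_dn he g hw (sm_evF hg (hF.at p) hw fun _ => trivial).diff] at k
    exact ⟨k.1, fun h0 => k.2 fun i => by simp [pd_rep he ((sm_w hg hw).diff _), repC, h0]⟩
  obtain ⟨C₂, C2, h2⟩ := ric_bd hg
  have h3 : ∀ p ∈ S, ∀ x, gn g (w p) x ≤ 1 + (C₁ + C₂) / ε := fun p hp x => by
    have s := hw p hp
    obtain ⟨q, -, hq⟩ := isCompact_univ.exists_isMaxOn univ_nonempty (sm_w hg s).cont.continuousOn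
    have m := hq.isLocalMax univ_mem
    have j := jac_max hg s m
    have j1 := (h1 q p hp _ s (hT p hp q)).2 (pd_of_isLocalMax m)
    rw [funext (eq p hp), dn_lin (s := ε) (t := 1) (w := w p) (ζ := evF g (F p) (w p)) fun i => by
      rw [pd_add ((s.diff q).const_mul ε) ((sm_evF hg (hF.at p) s fun _ => trivial).diff q),
        pd_const_mul, one_mul], dn_self hg] at j
    refine (gn_le_w hg _ x).trans ((hq (mem_univ x)).trans ?_)
    rw [← sub_le_iff_le_add', le_div_iff₀ ε0]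
    nlinarith [(abs_le.1 (h2 q (w p))).1, (winv hg (w p) q).2]
  have so := hw o ho
  have lo : pure o ≤ 𝓝[S] o := pure_le_nhdsWithin ho
  have c0 : ∀ δ > (0 : ℝ), ∀ᶠ p in 𝓝[S] o, ∀ x, |w p x - w o x| ≤ δ := fun δ δ0 => by
    have k1 : ∀ᶠ p in 𝓝[S] o, ∀ x ∈ univ,
        |evF g (F p) (w o) x - evF g (F o) (w o) x| ≤ ε * δ := ev_cpt isCompact_univ fun x _ => by
      refine ev_chart (P := fun p x => |evF g (F p) (w o) x - evF g (F o) (w o) x| ≤ ε * δ) ?_
      have he := ch_mem x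
      have hG := hg.rep he
      have c : Continuous (arg (rep (ch x) g) (loc (ch x) (w o))) :=
        continuous_id.prodMk ((so _ he).continuous.prodMk ((continuous_pi fun i =>
          (P366P.sm_nv hG (so _ he) i).cont).prodMk ((P366P.sm_w hG (so _ he)).cont.inv₀
            fun q => (P366P.w_pos hG _ _).ne')))
      have c1 : Continuous fun q : ℝ × E n =>
          lcF (ch x) (F q.1) (arg (rep (ch x) g) (loc (ch x) (w o)) q.2) :=
        (sF _ he).continuous.comp (continuous_fst.prodMk (c.comp continuous_snd))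
      have c2 := (c1.sub (c1.comp (f := fun q : ℝ × E n => (o, q.2)) (by fun_prop))).abs.tendsto
        (o, pt x)
      simp only [Pi.sub_apply, Function.comp_apply, sub_self, abs_zero, nhds_prod_eq] at c2
      filter_upwards [(c2.eventually (ge_mem_nhds (mul_pos ε0 δ0))).filter_mono
        (prod_mono nhdsWithin_le_nhds le_rfl)] with q hq
      rwa [← congrFun (loc_evF he g _ so.diff), ← congrFun (loc_evF he g _ so.diff)] at hq
    filter_upwards [k1, self_mem_nhdsWithin] with p hp hp' x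
    have s := hw p hp'
    have key : ∀ {u u' : X → ℝ} {Φ Φ' : Fc n X}, Smooth u → Smooth u' →
        (∀ x, dv g (nv g u) x = ε * u x + evF g Φ u x) →
        (∀ x, dv g (nv g u') x = ε * u' x + evF g Φ' u' x) →
        (∀ x, (∀ i, pd i u x = pd i u' x) → u' x ≤ u x → evF g Φ' u' x - ε * δ ≤ evF g Φ u x) →
        u x - u' x ≤ δ := fun {u u' Φ Φ'} a b c d k => by
      obtain ⟨q, -, hq⟩ := isCompact_univ.exists_isMaxOn univ_nonempty
        (a.cont.sub b.cont).continuousOn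
      obtain ⟨k1, k2⟩ := touch hg a b (hq.isLocalMax univ_mem)
      refine le_trans (hq (mem_univ x)) ?_
      show u q - u' q ≤ δ
      rcases le_total (u' q) (u q) with k3 | k3
      · rw [c, d] at k2
        exact le_of_mul_le_mul_left (by linarith [k q k1 k3]) ε0
      · linarith
    refine abs_sub_le_iff.2 ⟨key s so (eq p hp') (eq o ho) fun x a b => ?_,
      key so s (eq o ho) (eq p hp') fun x a b => ?_⟩
    · have k := mono p hp' x (fun i => nv g (w o) i x) _ (winv hg (w o) x) b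
      have k2 := abs_le.1 (hp x trivial)
      simp only [evF, nv_eq a, ww_eq a] at k k2 ⊢
      linarith [k2.1]
    · have k := mono p hp' x (fun i => nv g (w o) i x) _ (winv hg (w o) x) b
      have k2 := abs_le.1 (hp x trivial)
      simp only [evF, ← nv_eq a, ← ww_eq a] at k k2 ⊢
      linarith [k2.2]
  intro e he y
  have hG := hg.rep he
  obtain ⟨L, L0, hL⟩ := Lip2H.fderiv_cpt hG (isCompact_closedBall y (4 * 1))
  have ed : ∀ p ∈ S, ∀ z, P366Z.dv (rep e g) (P366P.nv (rep e g) (loc e (w p))) z =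
      dv g (nv g (w p)) (e.symm z) := fun p hp z => by
    rw [← repV_nv he g (hw p hp), dv_rep hg he ((cv_nv hg (hw p hp)).dv (by simp) _)]
  have p1 : 0 ≤ (C₁ + C₂) / ε := by positivity
  refine cv_cap (Ψ := fun p q => ε * q.2.1 + lcF e (F p) q)
    (D := L * (1 + (C₁ + C₂) / ε) + (ε * |T| + C₁)) hn hG lo
    (mem_of_superset self_mem_nhdsWithin fun p hp => hw p hp e he)
    (ub_par (B := fun q : ℝ × Qa n => ε * q.2.2.1 + lcF e (F q.1) q.2) (π := id)
      nhdsWithin_le_nhds (.of_forall fun q => ((contDiff_const.mul contDiff_snd.snd.fst).add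
        (sF e he)).contDiffAt)) ?_ one_pos ?_ (fun δ δ0 => (c0 δ δ0).mono fun p h z _ => h _) m
  · filter_upwards [tendsto_fst.eventually self_mem_nhdsWithin] with q hq
    rw [ed _ hq, eq _ hq, ← congrFun (loc_evF he g _ (hw _ hq).diff)]
    rfl
  · filter_upwards [self_mem_nhdsWithin] with p hp z hz
    have k := hL z (ball_subset_closedBall hz) _ (((hw p hp).diff _).lc he)
    rw [gn_rep he g ((hw p hp).diff _)] at k
    have k1 := mul_le_mul_of_nonneg_left (h3 p hp (e.symm z)) L0.le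
    have k2 : |ε * w p (e.symm z)| ≤ ε * |T| := by
      rw [abs_mul, abs_of_pos ε0]
      exact mul_le_mul_of_nonneg_left ((hT p hp _).trans (le_abs_self T)) ε0.le
    have k3 : 0 ≤ ε * |T| := by positivity
    have k4 : 0 ≤ L * (1 + (C₁ + C₂) / ε) := by positivity
    rw [ed p hp, eq p hp]
    exact ⟨by linarith, by linarith [abs_add_le (ε * w p (e.symm z)) (evF g (F p) (w p) (e.symm z)),
      (h1 (e.symm z) p hp _ (hw p hp) (hT p hp _)).1]⟩

/-- `H` (parameter, point, height, `1 / W`) is smooth for the heights in `I` -/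
def SmHP (H : ℝ → X → ℝ → ℝ → ℝ) (I : Set ℝ) : Prop := ∀ e ∈ At X, ∀ q : ℝ × E n × ℝ × ℝ,
  q.2.2.1 ∈ I → ContDiffAt ℝ ∞
    (fun q : ℝ × E n × ℝ × ℝ => H q.1 (e.symm q.2.1) q.2.2.1 q.2.2.2) q

theorem SmHP.at (h : SmHP H I) (p : ℝ) : SmH (H p) I := fun e he q hq =>
  (h e he (p, q) hq).comp q (contDiffAt_const.prodMk contDiffAt_id)

theorem smHP_of {V : Type} [NormedAddCommGroup V] [NormedSpace ℝ V] {Q : X → V} (hQ : CD ∞ Q)
    {Φ : ℝ × V × ℝ × ℝ → ℝ} (h : ∀ p x, ∀ t ∈ I, ∀ s, ContDiffAt ℝ ∞ Φ (p, Q x, t, s)) :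
    SmHP (fun p x t s => Φ (p, Q x, t, s)) I := fun e he q hq =>
  (h _ _ _ hq _).comp q (contDiff_fst.prodMk
    (((hQ e he).comp contDiff_snd.fst).prodMk contDiff_snd.snd)).contDiffAt

/-- **CONT**: the solutions depend continuously on the parameter, with all derivatives -/
theorem contV [CompactSpace X] (hn : 2 ≤ n) (hg : Met g) (hv' : CC ∞ v) {a' a b b' ε : ℝ}
    (ha : a' < a) (hab : a ≤ b) (hb : b < b') (ε0 : 0 < ε) (hH : SmHP H (Ioo a' b'))
    (hS : IsCompact S) (ho : o ∈ S) (mono : ∀ p ∈ S, ∀ x s, s ∈ Icc (0 : ℝ) 1 →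
      MonotoneOn (fun t => H p x t s - ε * t) (Ioo a' b'))
    (hw : ∀ p ∈ S, Smooth (w p)) (hT : ∀ p ∈ S, ∀ x, w p x ∈ Icc a b)
    (eq : ∀ p ∈ S, ∀ x, hv g v (w p) x = H p x (w p x) (ww g 1 (w p) x)⁻¹) (m : ℕ) :
    CvF (𝓝[S] o) o m w := by
  obtain ⟨τ, s, mτ, h1, h2⟩ := clamp ha hab hb
  refine contB (F := fun p => drF v fun x t s => H p x (τ t) s - ε * τ t) (T := |a| + |b|) hn hg
    (fun e he q _ => ?_) ε0 hS ho (fun p hp x ξ s hs t t' h =>
      add_le_add_left (mono p hp x s hs (h2 t) (h2 t') (mτ h)) _) hw (fun p hp x => abs_le.2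
      ⟨by linarith [(hT p hp x).1, neg_abs_le a, abs_nonneg b], by
        linarith [(hT p hp x).2, le_abs_self b, abs_nonneg a]⟩) (fun p hp x => ?_) m
  · have c : ContDiff ℝ ∞ fun q : ℝ × Qa n =>
        ((q.1, q.2.1, τ q.2.2.1, q.2.2.2.2) : ℝ × E n × ℝ × ℝ) := by fun_prop
    have k := (hH e he (q.1, q.2.1, τ q.2.2.1, q.2.2.2.2) (h2 _)).comp q c.contDiffAt
    have k1 := (smF_drF (I := univ) hv' (smH_const 0) e he q.2 trivial).comp q contDiffAt_snd
    have k2 : ContDiffAt ℝ ∞ (fun q : ℝ × Qa n => ε * τ q.2.2.1) q := by fun_prop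
    refine ((k.sub k2).add k1).congr_of_eventuallyEq (.of_forall fun q => ?_)
    simp [lcF, drF]
  · have := eq p hp x
    simp only [hv, Dv, ev] at this
    simp only [evF, drF, h1 _ (hT p hp x)]
    linarith

end Vale.Agent.P210C
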