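import Vale.Agent.P210C.Cont

/-!
# P210C: convergence of states; the scalar curvature of a state is continuous
-/

open Metric Filter Topology Set
open scoped ContDiff
open Vale.Agent.P366.Stmt (E)
open Vale.Agent.P366M Vale.Agent.P366M.Gr Vale.Agent.P366M.Y.C
open Vale.Agent.P210G
open Vale.Agent.P366P (Cv CvT B0 ev_cpt cv_fix cv_sum cv_const)

noncomputable section

namespace Vale.Agent.P210C

variable {n m : ℕ} {ι κ : Type} {l : Filter ι} {o : ι} {l' : Filter κ} {o' : κ} {π : κ → ι}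

theorem cv_reidx (hπ : Tendsto π l' l) (ho : pure o' ≤ l') (e : π o' = o) {y : E n} :
    ∀ {m : ℕ} {U : ι → E n → ℝ}, Cv l o m U y → Cv l' o' m (fun k => U (π k)) y := by
  have t : Tendsto (fun p : κ × E n => (π p.1, p.2)) (l' ×ˢ 𝓝 y) (l ×ˢ 𝓝 y) :=
    (hπ.comp tendsto_fst).prodMk tendsto_snd
  have h0 : ∀ {U : ι → E n → ℝ}, B0 l o U y → B0 l' o' (fun k => U (π k)) y := fun h =>
    ⟨ho, t.eventually h.sm, by rw [e]; exact h.cv.comp t⟩
  intro m
  induction m with
  | zero => exact h0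
  | succ m ih => exact fun h => ⟨h0 h.1, fun j => ih (h.2 j)⟩

theorem cv_par {c : ι → ℝ} (ho : pure o ≤ l) (hc : Tendsto c l (𝓝 (c o))) (y : E n) :
    ∀ m : ℕ, Cv l o m (fun i _ => c i) y
  | 0 => ⟨ho, .of_forall fun _ => contDiffAt_const, hc.comp tendsto_fst⟩
  | m + 1 => ⟨cv_par ho hc y 0, fun j =>
      (cv_const ho m 0).congr (.of_forall fun p => P366Z.pd_const _ j p.2)⟩

variable {X : Type} [Mf0 n X] {U V w : ι → X → ℝ} {v v' : ι → Fin n → X → ℝ}
  {g g' : ι → Fld n X}

/-- convergence of 1-forms with `m` derivatives in all charts -/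
def CvC (l : Filter ι) (o : ι) (m : ℕ) (v : ι → Fin n → X → ℝ) : Prop :=
  ∀ e ∈ At X, ∀ y j, Cv l o m (fun i => repC e (v i) j) y

/-- convergence of covariant tensors with `m` derivatives in all charts -/
def CvG (l : Filter ι) (o : ι) (m : ℕ) (g : ι → Fld n X) : Prop :=
  ∀ e ∈ At X, ∀ y, CvT l o m (fun i => rep e (g i)) y

theorem CvF.mono {k : ℕ} (h : CvF l o k U) (hk : m ≤ k) : CvF l o m U :=
  fun e he y => (h e he y).mono hk

theorem CvC.mono {k : ℕ} (h : CvC l o k v) (hk : m ≤ k) : CvC l o m v :=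
  fun e he y j => (h e he y j).mono hk

theorem CvG.mono {k : ℕ} (h : CvG l o k g) (hk : m ≤ k) : CvG l o m g :=
  fun e he y => (h e he y).mono hk

theorem CvF.le (h : CvF l o m U) : pure o ≤ l :=
  let ⟨x⟩ : Nonempty X := inferInstance; (h _ (ch_mem x) 0).b0.le

theorem CvG.le (h : CvG l o m g) : pure o ≤ l :=
  let ⟨x⟩ : Nonempty X := inferInstance; (h _ (ch_mem x) 0).1

theorem CvF.reidx (h : CvF l o m U) (hπ : Tendsto π l' l) (ho : pure o' ≤ l') (e : π o' = o) :
    CvF l' o' m fun k => U (π k) := fun c hc y => cv_reidx hπ ho e (h c hc y)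

theorem CvC.reidx (h : CvC l o m v) (hπ : Tendsto π l' l) (ho : pure o' ≤ l') (e : π o' = o) :
    CvC l' o' m fun k => v (π k) := fun c hc y j => cv_reidx hπ ho e (h c hc y j)

theorem CvG.reidx (h : CvG l o m g) (hπ : Tendsto π l' l) (ho : pure o' ≤ l') (e : π o' = o) :
    CvG l' o' m fun k => g (π k) := fun c hc y => ⟨ho, fun a b => cv_reidx hπ ho e ((h c hc y).2 a b)⟩

theorem cvF_fix (ho : pure o ≤ l) {u : X → ℝ} (hu : Smooth u) : CvF l o m fun _ => u :=
  fun e he _ => cv_fix ho m (.of_forall fun _ => (hu e he).contDiffAt)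

theorem cvC_fix (ho : pure o ≤ l) {a : Fin n → X → ℝ} (ha : CC ∞ a) : CvC l o m fun _ => a :=
  fun e he _ j => cv_fix ho m (.of_forall fun _ => (ha e he j).contDiffAt)

theorem cvG_fix (ho : pure o ≤ l) {T : Fld n X} (hT : SmT T) : CvG l o m fun _ => T :=
  fun e he _ => ⟨ho, fun a b => cv_fix ho m (.of_forall fun _ => (hT e he a b).contDiffAt)⟩

theorem cvF_par {c : ι → ℝ} (ho : pure o ≤ l) (hc : Tendsto c l (𝓝 (c o))) :
    CvF l o m fun i (_ : X) => c i := fun _ _ y => cv_par ho hc y m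

theorem CvF.add (h : CvF l o m U) (k : CvF l o m V) : CvF l o m fun i x => U i x + V i x :=
  fun e he y => (h e he y).add (k e he y)

theorem CvF.sub (h : CvF l o m U) (k : CvF l o m V) : CvF l o m fun i x => U i x - V i x :=
  fun e he y => (h e he y).sub (k e he y)

theorem CvF.mul (h : CvF l o m U) (k : CvF l o m V) : CvF l o m fun i x => U i x * V i x :=
  fun e he y => (h e he y).mul (k e he y)

theorem CvF.comp (h : CvF l o m U) {φ : ℝ → ℝ} (hφ : ∀ x, ∀ᶠ t in 𝓝 (U o x), ContDiffAt ℝ ∞ φ t) :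
    CvF l o m fun i x => φ (U i x) := fun e he y => (h e he y).comp1 (hφ _)

theorem CvC.add (h : CvC l o m v) (k : CvC l o m v') :
    CvC l o m fun i j x => v i j x + v' i j x := fun e he y j => by
  simp only [repC_add]; exact (h e he y j).add (k e he y j)

theorem CvC.smul (h : CvF l o m U) (k : CvC l o m v) :
    CvC l o m fun i j x => U i x * v i j x := fun e he y j => by
  simp only [repC_smul]; exact (h e he y).mul (k e he y j)

theorem CvG.add (h : CvG l o m g) (k : CvG l o m g') :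
    CvG l o m fun i x a b => g i x a b + g' i x a b := fun e he y => ⟨h.le, fun a b => by
  simp only [rep_add]; exact ((h e he y).2 a b).add ((k e he y).2 a b)⟩

theorem CvG.smul (h : CvF l o m U) (k : CvG l o m g) :
    CvG l o m fun i x a b => U i x * g i x a b := fun e he y => ⟨h.le, fun a b => by
  simp only [rep_smul]; exact (h e he y).mul ((k e he y).2 a b)⟩

theorem CvC.prod (ho : pure o ≤ l) (h : CvC l o m v) (k : CvC l o m v') :
    CvG l o m fun i x a b => v i a x * v' i b x := fun e he y => ⟨ho, fun a b => by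
  simp only [rep_prod]; exact (h e he y a).mul (k e he y b)⟩

theorem CvF.df (h : CvF l o (m + 1) U) (hU : ∀ᶠ i in l, Smooth (U i)) :
    CvC l o m fun i => df (U i) := fun e he y j => ((h e he y).pd j).congr
  ((tendsto_fst.eventually hU).mono fun _ k => (pd_rep he (k.diff _) j).symm)

theorem CvG.iv (h : CvG l o m g) (h0 : Met (g o)) (a : CvC l o m v) (b : CvC l o m v') :
    CvF l o m fun i => iv (g i) (v i) (v' i) := fun e he y =>
  (cv_sum h.le Finset.univ fun c _ => cv_sum h.le Finset.univ fun d _ => (((h e he y).up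
    ((h0.rep he).det_pos y) c d).mul (a e he y c)).mul (b e he y d)).congr (.of_forall fun p => by
      have k := congrFun₂ (raise_rep he (fun x i j => up (g p.1) i j x) (v' p.1))
      beta_reduce
      rw [loc_apply, iv_eq_ev, ev, ← dot_rep he]
      refine Finset.sum_congr rfl fun c _ => ?_
      rw [show sh (g p.1) (v' p.1) = fun i x => ∑ j, up (g p.1) i j x * v' p.1 j x from rfl, k,
        Finset.mul_sum]
      exact Finset.sum_congr rfl fun d _ => by rw [up_rep]; ring)

theorem CvG.Rv (h : CvG l o (m + 2) g) (a : CvC l o (m + 1) v)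
    (hm : ∀ᶠ i in l, Met (g i) ∧ CC ∞ (v i)) : CvF l o m fun i => Rv (g i) (v i) := by
  have h0 : Met (g o) := (hm.filter_mono h.le).1
  intro e he y
  have d := (h0.rep he).det_pos y
  have k : Cv l o m (fun i => P366Z.dv (rep e (g i)) (repV e (sh (g i) (v i)))) y :=
    (h e he y).pred.dv d fun c => (cv_sum h.le Finset.univ fun b _ =>
      ((h e he y).pred.up d c b).mul (a e he y b)).congr (.of_forall fun p => by
        rw [show sh (g p.1) (v p.1) = fun i x => ∑ j, up (g p.1) i j x * v p.1 j x from rfl,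
          raise_rep he (fun x i j => up (g p.1) i j x)]
        simp only [up_rep])
  refine ((((h e he y).scal d).add (k.const_mul 2)).sub ((h.mono (by omega)).iv h0
    (a.mono m.le_succ) (a.mono m.le_succ) e he y)).congr
    ((tendsto_fst.eventually hm).mono fun p q => ?_)
  rw [scal_rep q.1 he, dv_rep q.1 he (dV_sh q.1 q.2 _)]
  rfl

theorem CvG.gb (h : CvG l o m g) (hw : CvF l o (m + 1) w) (s : ∀ᶠ i in l, Smooth (w i)) :
    CvG l o m fun i => gb (g i) 1 (w i) := by
  have := h.add (CvC.prod h.le (hw.df s) (hw.df s))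
  have e : (fun i => Y.C.gb (g i) 1 (w i)) =
      fun i x a b => g i x a b + df (w i) a x * df (w i) b x := by
    funext i x a b
    simp [Y.C.gb, P210G.df]
  rwa [e]

theorem CvG.ww (h : CvG l o m g) (h0 : Met (g o)) (hw : CvF l o (m + 1) w)
    (s : ∀ᶠ i in l, Smooth (w i)) : CvF l o m fun i => ww (g i) 1 (w i) := by
  have k := ((cvF_fix h.le (u := fun _ => 1) cd_const).add (h.iv h0 (hw.df s) (hw.df s))).comp
    (φ := Real.sqrt) fun x => (eventually_ne_nhds (add_pos_of_pos_of_nonneg one_pos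
      (iv_nonneg h0 _ x)).ne').mono fun _ q => Real.contDiffAt_sqrt q
  refine fun e he y => (k e he y).congr (.of_forall fun p => ?_)
  simp [loc_apply, Y.C.ww, iv_df]

theorem CvG.vg (h : CvG l o (m + 1) g) (a : CvC l o m v) (hw : CvF l o (m + 2) w)
    (s : ∀ᶠ i in l, Met (g i) ∧ Smooth (w i)) : CvC l o m fun i => vg (g i) (v i) (w i) := by
  have h0 : Met (g o) := (s.filter_mono h.le).1
  exact a.add (((h.ww h0 hw (s.mono fun _ q => q.2)).comp (φ := Real.log) fun x =>
    (eventually_ne_nhds (w_pos h0 _ x).ne').mono fun _ q => Real.contDiffAt_log.2 q).df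
    (s.mono fun _ q => sm_lw q.1 q.2))

theorem CvF.td (h : CvF l o m U) (x : X) :
    Tendsto (fun p : ι × X => U p.1 p.2) (l ×ˢ 𝓝 x) (𝓝 (U o x)) := fun s hs => by
  have k := (h _ (ch_mem x) (pt x)).b0.cv
  rw [loc_pt] at k
  exact ev_chart (P := fun i z => U i z ∈ s) (k hs)

/-- uniform convergence on compact sets -/
theorem CvF.unif (h : CvF l o m U) {K : Set X} (hK : IsCompact K) {ε : ℝ} (hε : 0 < ε) :
    ∀ᶠ i in l, ∀ x ∈ K, |U i x - U o x| ≤ ε :=
  P366P.unif_of_tendsto hK h.le (fun x _ => h.td x) hε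

/-- **segments**: close states are joined by segments with a small loss -/
theorem seg_Rv (h : CvG l o 2 g) (a : CvC l o 1 v) (hm : ∀ᶠ i in l, Met (g i) ∧ CC ∞ (v i))
    {K : Set X} (hK : IsCompact K) {ε : ℝ} (hε : 0 < ε) : ∀ᶠ i in l, ∀ s ∈ Icc (0 : ℝ) 1, ∀ x ∈ K,
      |Rv (fun x a b => (1 - s) * g o x a b + s * g i x a b)
        (fun j x => (1 - s) * v o j x + s * v i j x) x - Rv (g o) (v o) x| ≤ ε := by
  have h0 : Met (g o) ∧ CC ∞ (v o) := hm.filter_mono h.le
  have key : ∀ s ∈ Icc (0 : ℝ) 1, ∀ᶠ p in l ×ˢ 𝓝[Icc 0 1] s, ∀ x ∈ K,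
      |Rv (fun x a b => (1 - p.2) * g o x a b + p.2 * g p.1 x a b)
        (fun j x => (1 - p.2) * v o j x + p.2 * v p.1 j x) x - Rv (g o) (v o) x| ≤ ε := by
    intro s hs
    have lo : pure (o, s) ≤ l ×ˢ 𝓝[Icc 0 1] s := by
      rw [← prod_pure_pure]; exact prod_mono h.le (pure_le_nhdsWithin hs)
    have t : Tendsto (fun p : ι × ℝ => p.2) (l ×ˢ 𝓝[Icc 0 1] s) (𝓝 s) :=
      tendsto_snd.mono_right nhdsWithin_le_nhds
    have c1 := fun m => cvF_par (X := X) (m := m) (c := fun p : ι × ℝ => p.2) lo t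
    have c2 := fun m => cvF_par (X := X) (m := m) (c := fun p : ι × ℝ => 1 - p.2) lo
      (t.const_sub 1)
    have k := (((CvG.smul (c2 2) (cvG_fix lo h0.1.sm)).add (CvG.smul (c1 2)
      (h.reidx tendsto_fst lo rfl))).Rv ((CvC.smul (c2 1) (cvC_fix lo h0.2)).add (CvC.smul (c1 1)
      (a.reidx tendsto_fst lo rfl))) (by
        filter_upwards [tendsto_fst.eventually hm, tendsto_snd.eventually self_mem_nhdsWithin]
          with p b c
        refine ⟨⟨(SmT.smul cd_const h0.1.sm).add (SmT.smul cd_const b.1.sm), fun x i j => by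
          rw [h0.1.sy, b.1.sy], fun x => ?_⟩, (CC.smul cd_const h0.2).add (CC.smul cd_const b.2)⟩
        rcases c.1.eq_or_lt with q | q
        · simpa [mat, ← q] using h0.1.pos x
        · exact Matrix.PosDef.posSemidef_add ((h0.1.pos x).posSemidef.smul (sub_nonneg.2 c.2))
            ((b.1.pos x).smul q))).unif hK hε
    simpa only [← add_mul, sub_add_cancel, one_mul] using k
  have k := (isCompact_Icc (a := (0 : ℝ)) (b := 1)).induction_on (p := fun T => ∀ᶠ i in l, ∀ s ∈ T, s ∈ Icc (0 : ℝ) 1 →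
      ∀ x ∈ K, |Rv (fun x a b => (1 - s) * g o x a b + s * g i x a b)
        (fun j x => (1 - s) * v o j x + s * v i j x) x - Rv (g o) (v o) x| ≤ ε)
    (by simp) (fun _ _ hs k => k.mono fun _ q x hx => q x (hs hx))
    (fun _ _ k k' => (k.and k').mono fun _ q x hx => hx.elim (q.1 x) (q.2 x)) fun s hs => by
      obtain ⟨pa, ha, pb, hb, H⟩ := eventually_prod_iff.1 (key s hs)
      exact ⟨_, hb, ha.mono fun _ q _ hy _ => H q hy⟩
  exact k.mono fun i q s hs => q s hs hs

end Vale.Agent.P210C
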