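import Vale.Agent.P210C.Cap
import Vale.Agent.P210G.Defs

/-!
# P210C: the capillary equation with a drift; existence and comparison
-/

open MeasureTheory Metric Filter Topology Set Matrix
open scoped ContDiff
open Vale.Agent.P366.Stmt (E)
open Vale.Agent.P366M Vale.Agent.P366M.An Vale.Agent.P366M.Gr Vale.Agent.P366M.Y.C
open Vale.Agent.P210G

noncomputable section

namespace Vale.Agent.P210C

variable {n : ℕ} {X : Type} [Mf0 n X] {g : Fld n X} {x : X} {u w w' : X → ℝ} {F : Fc n X}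
  {v : Fin n → X → ℝ} {I : Set ℝ} {H H' : X → ℝ → ℝ → ℝ}

theorem clamp1 {b b' : ℝ} (h : b < b') : ∃ φ : ℝ → ℝ, ContDiff ℝ ∞ φ ∧ Monotone φ ∧
    (∀ t ≤ b, φ t = t) ∧ ∀ t, φ t < b' := by
  obtain ⟨φ, s, h1, h2, m, -⟩ := TrcH.prof (T := 1 / 2) (by norm_num)
  obtain ⟨c, hc⟩ : ∃ c, c = (b' - b) / (|φ (4 * (1 / 2))| + 1) := ⟨_, rfl⟩
  have p : 0 < |φ (4 * (1 / 2))| + 1 := by positivity
  have c0 : 0 < c := hc ▸ div_pos (sub_pos.2 h) p
  refine ⟨fun t => b + c * (φ ((t - b) / c + 1) - 1), by fun_prop, fun s t hst => ?_,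
    fun t ht => ?_, fun t => ?_⟩
  · have := m (show (s - b) / c + 1 ≤ (t - b) / c + 1 by gcongr)
    simp only
    gcongr
  · beta_reduce
    rw [h1 ((t - b) / c + 1) (by linarith [div_nonpos_of_nonpos_of_nonneg (sub_nonpos.2 ht) c0.le])]
    field_simp
    ring
  · have k : φ ((t - b) / c + 1) ≤ φ (4 * (1 / 2)) := by
      rcases le_total ((t - b) / c + 1) (4 * (1 / 2)) with k | k
      · exact m k
      · exact (h2 _ k).le
    have e : c * (|φ (4 * (1 / 2))| + 1) = b' - b := by rw [hc]; field_simp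
    nlinarith [le_abs_self (φ (4 * (1 / 2)))]

/-- a smooth monotone function which is the identity on `[a, b]`, with values in `(a', b')` -/
theorem clamp {a' a b b' : ℝ} (ha : a' < a) (hab : a ≤ b) (hb : b < b') :
    ∃ τ : ℝ → ℝ, ContDiff ℝ ∞ τ ∧ Monotone τ ∧ (∀ t ∈ Icc a b, τ t = t) ∧ ∀ t, τ t ∈ Ioo a' b' := by
  obtain ⟨φ, s, m, h1, h2⟩ := clamp1 hb
  obtain ⟨ψ, s', m', h3, h4⟩ := clamp1 (neg_lt_neg ha)
  refine ⟨fun t => φ (-ψ (-t)), by fun_prop, fun s t h => m (neg_le_neg (m' (neg_le_neg h))),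
    fun t ht => by simp only [h3 _ (neg_le_neg ht.1), neg_neg, h1 _ ht.2], fun t => ⟨?_, h2 _⟩⟩
  beta_reduce
  rcases le_total (-ψ (-t)) b with k | k
  · rw [h1 _ k]; linarith [h4 (-t)]
  · linarith [m k, h1 b le_rfl]

/-- **existence**, general forcing term -/
theorem capF [CompactSpace X] (hn : 2 ≤ n) (hg : Met g) {a' a b b' ε : ℝ} (ha : a' < a) (hab : a ≤ b)
    (hb : b < b') (ε0 : 0 < ε) (hF : SmF F (Ioo a' b'))
    (mono : ∀ x ξ s, s ∈ Icc (0 : ℝ) 1 → MonotoneOn (fun t => F x t ξ s - ε * t) (Ioo a' b'))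
    (lo : ∀ x, F x a 0 1 ≤ 0) (hi : ∀ x, 0 ≤ F x b 0 1) :
    ∃ w, Smooth w ∧ (∀ x, w x ∈ Icc a b) ∧ ∀ x, dv g (nv g w) x = evF g F w x := by
  obtain ⟨τ, s, m, h1, h2⟩ := clamp ha hab hb
  have c : ContDiff ℝ ∞ fun q : Qa n => ((q.1, τ q.2.1, q.2.2) : Qa n) := by fun_prop
  obtain ⟨w, hw, k, eq⟩ := capB (F := fun x t ξ s => F x (τ t) ξ s - ε * τ t) (a := a) (b := b) hn hg
    (fun e he q _ => ((hF e he (q.1, τ q.2.1, q.2.2) (h2 _)).comp q c.contDiffAt).sub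
      (by fun_prop)) ε0 (fun x ξ s hs a b hab => mono x ξ s hs (h2 a) (h2 b) (m hab))
    (fun x => by rw [h1 a ⟨le_rfl, hab⟩]; linarith [lo x])
    (fun x => by rw [h1 b ⟨hab, le_rfl⟩]; linarith [hi x])
  refine ⟨w, hw, k, fun x => ?_⟩
  rw [eq, evF, evF, h1 _ (k x)]
  ring

/-- `H` (point, height, `1 / W`) is smooth for the heights in `I` -/
def SmH (H : X → ℝ → ℝ → ℝ) (I : Set ℝ) : Prop := ∀ e ∈ At X, ∀ q : E n × ℝ × ℝ, q.2.1 ∈ I →
  ContDiffAt ℝ ∞ (fun q : E n × ℝ × ℝ => H (e.symm q.1) q.2.1 q.2.2) q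

theorem smH_of {V : Type} [NormedAddCommGroup V] [NormedSpace ℝ V] {S : X → V} (hS : CD ∞ S)
    {Φ : V × ℝ × ℝ → ℝ} (h : ∀ x, ∀ t ∈ I, ∀ s, ContDiffAt ℝ ∞ Φ (S x, t, s)) :
    SmH (fun x t s => Φ (S x, t, s)) I := fun e he q hq =>
  (h _ _ hq _).comp q (((hS e he).comp contDiff_fst).prodMk contDiff_snd).contDiffAt

theorem smH_x (hu : Smooth u) : SmH (fun x _ _ => u x) I := fun e he _ _ =>
  ((hu e he).comp contDiff_fst).contDiffAt

theorem smH_const (c : ℝ) : SmH (fun (_ : X) _ _ => c) I := fun _ _ _ _ => contDiffAt_const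

theorem smH_t : SmH (fun (_ : X) t _ => t) I := fun _ _ _ _ => contDiff_snd.fst.contDiffAt

theorem smH_u : SmH (fun (_ : X) _ s => s) I := fun _ _ _ _ => contDiff_snd.snd.contDiffAt

theorem SmH.mono {I' : Set ℝ} (h : SmH H I) (k : I' ⊆ I) : SmH H I' :=
  fun e he q hq => h e he q (k hq)

theorem SmH.add (h : SmH H I) (h' : SmH H' I) : SmH (fun x t s => H x t s + H' x t s) I :=
  fun e he q hq => (h e he q hq).add (h' e he q hq)

theorem SmH.sub (h : SmH H I) (h' : SmH H' I) : SmH (fun x t s => H x t s - H' x t s) I :=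
  fun e he q hq => (h e he q hq).sub (h' e he q hq)

theorem SmH.neg (h : SmH H I) : SmH (fun x t s => -H x t s) I :=
  fun e he q hq => (h e he q hq).neg

theorem SmH.mul (h : SmH H I) (h' : SmH H' I) : SmH (fun x t s => H x t s * H' x t s) I :=
  fun e he q hq => (h e he q hq).mul (h' e he q hq)

theorem SmH.pow (h : SmH H I) (k : ℕ) : SmH (fun x t s => H x t s ^ k) I :=
  fun e he q hq => (h e he q hq).pow k

theorem SmH.div (h : SmH H I) (h' : SmH H' I) (h0 : ∀ x, ∀ t ∈ I, ∀ s, H' x t s ≠ 0) :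
    SmH (fun x t s => H x t s / H' x t s) I :=
  fun e he q hq => (h e he q hq).div (h' e he q hq) (h0 _ _ hq _)

theorem SmH.comp (h : SmH H I) {φ : ℝ → ℝ} (hφ : ∀ x, ∀ t ∈ I, ∀ s, ContDiffAt ℝ ∞ φ (H x t s)) :
    SmH (fun x t s => φ (H x t s)) I :=
  fun e he q hq => (hφ _ _ hq _).comp q (h e he q hq)

theorem SmH.comp₂ (h : SmH H I) (h' : SmH H' I) {φ : ℝ × ℝ → ℝ}
    (hφ : ∀ x, ∀ t ∈ I, ∀ s, ContDiffAt ℝ ∞ φ (H x t s, H' x t s)) :
    SmH (fun x t s => φ (H x t s, H' x t s)) I :=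
  fun e he q hq => (hφ _ _ hq _).comp q ((h e he q hq).prodMk (h' e he q hq))

theorem SmH.sum {ι : Type} {T : Finset ι} {H : ι → X → ℝ → ℝ → ℝ} (h : ∀ i ∈ T, SmH (H i) I) :
    SmH (fun x t s => ∑ i ∈ T, H i x t s) I :=
  fun e he q hq => ContDiffAt.sum fun i hi => h i hi e he q hq

/-- the forcing term of the equation with a drift -/
def drF (v : Fin n → X → ℝ) (H : X → ℝ → ℝ → ℝ) : Fc n X := fun x t ξ s => H x t s + ∑ i, v i x * ξ i

theorem smF_drF (hv : CC ∞ v) (hH : SmH H I) : SmF (drF v H) I := fun e he q hq => by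
  have e1 : lcF e (drF v H) = fun q : Qa n => H (e.symm q.1) q.2.1 q.2.2.2 +
      ∑ i, repC e v i q.1 * q.2.2.1 i := by
    funext q
    simp only [lcF, drF, repC, mulVec, dotProduct, Finset.mul_sum, Finset.sum_mul]
    rw [Finset.sum_comm]
    exact congrArg _ (Finset.sum_congr rfl fun _ _ => Finset.sum_congr rfl fun _ _ => by ring)
  have c : ContDiff ℝ ∞ fun q : Qa n => ((q.1, q.2.1, q.2.2.2) : E n × ℝ × ℝ) := by fun_prop
  rw [e1]
  exact ((hH e he (q.1, q.2.1, q.2.2.2) hq).comp q c.contDiffAt).add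
    (ContDiff.sum fun i _ => ((hv e he i).comp contDiff_fst).mul
      ((contDiff_apply ℝ ℝ i).comp contDiff_snd.snd.fst)).contDiffAt

theorem hv_iff : dv g (nv g w) x = evF g (drF v H) w x ↔
    hv g v w x = H x (w x) (ww g 1 w x)⁻¹ := sub_eq_iff_eq_add.symm

theorem SmH.sm (hg : Met g) (hH : SmH H I) (hw : Smooth w) (h : ∀ x, w x ∈ I) :
    Smooth fun x => H x (w x) (ww g 1 w x)⁻¹ := fun e he =>
  contDiff_iff_contDiffAt.2 fun y => by
    have c : ContDiff ℝ ∞ fun y => ((y, loc e w y, (loc e (ww g 1 w) y)⁻¹) : E n × ℝ × ℝ) :=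
      contDiff_id.prodMk ((hw e he).prodMk ((sm_w hg hw e he).inv fun _ => (w_pos hg _ _).ne'))
    have k := (hH e he (y, loc e w y, (loc e (ww g 1 w) y)⁻¹) (h _)).comp y c.contDiffAt
    exact k

/-- **existence** for the equation `D_v (∇ w / W) = H (x, w, 1 / W)` -/
theorem capV [CompactSpace X] (hn : 2 ≤ n) (hg : Met g) (hv' : CC ∞ v) {a' a b b' ε : ℝ}
    (ha : a' < a) (hab : a ≤ b) (hb : b < b') (ε0 : 0 < ε) (hH : SmH H (Ioo a' b'))
    (mono : ∀ x s, s ∈ Icc (0 : ℝ) 1 → MonotoneOn (fun t => H x t s - ε * t) (Ioo a' b'))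
    (lo : ∀ x, H x a 1 ≤ 0) (hi : ∀ x, 0 ≤ H x b 1) :
    ∃ w, Smooth w ∧ (∀ x, w x ∈ Icc a b) ∧ ∀ x, hv g v w x = H x (w x) (ww g 1 w x)⁻¹ := by
  obtain ⟨w, hw, k, eq⟩ := capF hn hg ha hab hb ε0 (smF_drF hv' hH)
    (fun x ξ s hs t ht t' ht' h => by
      have := mono x s hs ht ht' h
      simp only [drF] at this ⊢
      linarith) (fun x => by simpa [drF] using lo x) fun x => by simpa [drF] using hi x
  exact ⟨w, hw, k, fun x => hv_iff.1 (eq x)⟩

/-- existence when `H` is smooth for all heights -/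
theorem capV' [CompactSpace X] (hn : 2 ≤ n) (hg : Met g) (hv' : CC ∞ v) {a b ε : ℝ}
    (hab : a ≤ b) (ε0 : 0 < ε) (hH : SmH H univ)
    (mono : ∀ x s, s ∈ Icc (0 : ℝ) 1 → Monotone fun t => H x t s - ε * t)
    (lo : ∀ x, H x a 1 ≤ 0) (hi : ∀ x, 0 ≤ H x b 1) :
    ∃ w, Smooth w ∧ (∀ x, w x ∈ Icc a b) ∧ ∀ x, hv g v w x = H x (w x) (ww g 1 w x)⁻¹ :=
  capV hn hg hv' (sub_one_lt a) hab (lt_add_one b) ε0 (hH.mono (subset_univ _))
    (fun x s hs => (mono x s hs).monotoneOn _) lo hi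

/-! ### comparison -/

/-- **contact**: at a local maximum of `w - w'` -/
theorem cmp_pt (hg : Met g) (v : Fin n → X → ℝ) (hw : ∀ᶠ z in 𝓝 x, CAt ∞ w z)
    (hw' : ∀ᶠ z in 𝓝 x, CAt ∞ w' z) (h : IsLocalMax (fun y => w y - w' y) x) :
    (∀ i, pd i w x = pd i w' x) ∧ hv g v w x ≤ hv g v w' x := by
  obtain ⟨h1, h2⟩ := touch' hg hw hw' h
  exact ⟨h1, by simp only [hv, Dv, ev, nv_eq h1]; linarith⟩

theorem hv_const (hg : Met g) (v : Fin n → X → ℝ) (c : ℝ) (x : X) : hv g v (fun _ => c) x = 0 := by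
  simp [hv, Dv, ev, dv_const hg, nv, gr, pd_const]

/-- **comparison** on a compact set `K` with the interior part `O` -/
theorem cmp_on (hg : Met g) (v : Fin n → X → ℝ) {K O : Set X} (hK : IsCompact K) (hO : IsOpen O)
    (hOK : O ⊆ K) (c : ContinuousOn (fun y => w y - w' y) K) (bd : ∀ x ∈ K, x ∉ O → w x ≤ w' x)
    (int : ∀ x ∈ O, w' x < w x → (∀ᶠ z in 𝓝 x, CAt ∞ w z) ∧ (∀ᶠ z in 𝓝 x, CAt ∞ w' z) ∧
      ((∀ i, pd i w x = pd i w' x) → hv g v w' x < hv g v w x)) : ∀ x ∈ K, w x ≤ w' x := by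
  intro x hx
  by_contra k
  obtain ⟨p, hp, hm⟩ := hK.exists_isMaxOn ⟨x, hx⟩ c
  have k1 : w' p < w p := by linarith [show w x - w' x ≤ w p - w' p from hm hx, not_le.1 k]
  have k2 : p ∈ O := by_contra fun h => (bd p hp h).not_gt k1
  obtain ⟨h1, h2, h3⟩ := int p k2 k1
  obtain ⟨h4, h5⟩ := cmp_pt hg v h1 h2 (hm.isLocalMax (mem_of_superset (hO.mem_nhds k2) hOK))
  exact (h3 h4).not_ge h5

/-- **comparison** of a subsolution and a supersolution on a closed manifold -/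
theorem cmp [CompactSpace X] (hg : Met g) (v : Fin n → X → ℝ) (hw : Smooth w) (hw' : Smooth w')
    (mono : ∀ x s, s ∈ Icc (0 : ℝ) 1 → StrictMonoOn (fun t => H x t s) I)
    (m : ∀ x, w x ∈ I) (m' : ∀ x, w' x ∈ I) (sub : ∀ x, H x (w x) (ww g 1 w x)⁻¹ ≤ hv g v w x)
    (sup : ∀ x, hv g v w' x ≤ H x (w' x) (ww g 1 w' x)⁻¹) (x : X) : w x ≤ w' x :=
  cmp_on hg v isCompact_univ isOpen_univ subset_rfl (hw.cont.sub hw'.cont).continuousOn
    (fun _ _ h => (h trivial).elim) (fun x _ k => ⟨.of_forall fun _ => CD.contDiffAt hw,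
      .of_forall fun _ => CD.contDiffAt hw', fun e => (sup x).trans_lt (.trans_le (by
        rw [← ww_eq e]; exact mono x _ (winv hg w x) (m' x) (m x) k) (sub x))⟩) x trivial

theorem strict_of {ε : ℝ} (ε0 : 0 < ε) {f : ℝ → ℝ} (h : MonotoneOn (fun t => f t - ε * t) I) :
    StrictMonoOn f I := fun a ha b hb k => by
  have := h ha hb k.le
  simp only at this
  nlinarith

/-- **the gradient estimate**, uniform in the stiffness -/
theorem grad_hv [CompactSpace X] (hg : Met g) (hv' : CC ∞ v) {a' a b b' : ℝ} (ha : a' < a)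
    (hab : a ≤ b) (hb : b < b') (hH : SmH H (Ioo a' b'))
    (mono : ∀ x s, s ∈ Icc (0 : ℝ) 1 → MonotoneOn (fun t => H x t s) (Ioo a' b')) :
    ∃ C ≥ (0 : ℝ), ∀ ε > (0 : ℝ), ∀ w, Smooth w → (∀ x, w x ∈ Icc a b) →
      (∀ x, hv g v w x = ε * w x + H x (w x) (ww g 1 w x)⁻¹) → ∀ x, ww g 1 w x ≤ 1 + C / ε := by
  obtain ⟨τ, s, m, h1, h2⟩ := clamp ha hab hb
  have c : ContDiff ℝ ∞ fun q : E n × ℝ × ℝ => ((q.1, τ q.2.1, q.2.2) : E n × ℝ × ℝ) := by fun_prop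
  obtain ⟨C, C0, h⟩ := grad_bd hg (smF_drF (H := fun x t s => H x (τ t) s) hv'
    fun e he q _ => by
      have k := (hH e he (q.1, τ q.2.1, q.2.2) (h2 _)).comp q c.contDiffAt
      exact k) (|a| + |b|)
    fun x ξ s hs t t' h => add_le_add_left (mono x s hs (h2 t) (h2 t') (m h)) _
  refine ⟨C, C0, fun ε ε0 w hw k eq x => (h ε ε0 1 ⟨zero_le_one, le_rfl⟩ w hw (fun x => abs_le.2
    ⟨by linarith [(k x).1, neg_abs_le a, abs_nonneg b], by
      linarith [(k x).2, le_abs_self b, abs_nonneg a]⟩) (fun x => ?_) x).1⟩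
  have := eq x
  simp only [hv, Dv, ev] at this
  simp only [evF, drF, h1 _ (k x)]
  linarith

end Vale.Agent.P210C
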