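import Vale.Agent.P210C.Stf
import Vale.Agent.P210C.Jet
import Vale.Agent.P210Y.Decay
import Vale.Agent.P210T.Tail

/-!
# P210C: the compactly supported graph move
-/

open Filter Topology Set
open scoped ContDiff
open Vale.Agent.P366.Stmt (E)
open Vale.Agent.P366M Vale.Agent.P366M.An Vale.Agent.P366M.Gr Vale.Agent.P366M.Y.C
open Vale.Agent.P210G Vale.Agent.P210T

noncomputable section

namespace Vale.Agent.P210C

variable {n : ℕ} {X : Type} [Mf0 n X] {g : Fld n X} {v : Fin n → X → ℝ} {χ h w : X → ℝ} {x : X}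
  {M A b T α : ℝ} {θ c : ℝ → ℝ} {β d : ℝ → ℝ → ℝ}

namespace Stf

variable (S : Stf M A b T α θ c β d) (α0 : 0 < α)
include S

theorem zero (p : ℝ) : β p 0 = 0 := by
  have := S.odd p 0
  rw [neg_zero] at this
  linarith

include α0

theorem smono (p : ℝ) : StrictMono (β p) :=
  strictMonoOn_univ.1 (strict_of α0 ((S.mono p).monotoneOn _))

theorem c0 (M0 : 0 ≤ M) (p : ℝ) : 0 ≤ c p ∧ c p ≤ M / α := by
  have h1 := mul_nonneg (S.θm p).1 M0
  have h2 : 0 ≤ c p := (S.smono α0 p).le_iff_le.1 (by rw [S.zero, S.rt]; exact h1)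
  have h3 := S.mono p h2
  simp only [S.zero, S.rt] at h3
  exact ⟨h2, (le_div_iff₀ α0).2 (by nlinarith [(S.θm p).2])⟩

theorem lt_of (hb : α * T ≤ b) (T0 : 0 ≤ T) {t : ℝ} (ht : β 1 t < -b) : t < -T :=
  (S.smono α0 1).lt_iff_lt.1 (by rw [S.lin (-T) (by rw [abs_neg, abs_of_nonneg T0])]; linarith)

end Stf

/-- the solution is close to the constant `-c p` where the label is the constant `M` -/
theorem side (hg : Met g) (hv' : CC ∞ v) {K O : Set X} (hK : IsCompact K) (hO : IsOpen O)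
    (hKO : K ⊆ O) : ∃ Λ ≥ (0 : ℝ), ∀ ε > (0 : ℝ), ∃ A₀ > (0 : ℝ), ∀ {M A b T α : ℝ} {θ c : ℝ → ℝ}
      {β d : ℝ → ℝ → ℝ}, Stf M A b T α θ c β d → 0 < α → A₀ ≤ A → Λ + b < M → ∀ p w, Smooth w →
      (∀ x ∈ O, hv g v w x = θ p * M + β p (w x)) → ∀ x ∈ K, (|w x + c p| ≤ ε ∧ gn g w x ≤ ε ∧
        |hv g v w x| ≤ Λ) ∧ (θ p = 1 → β p (w x) < -b) := by
  obtain ⟨K₁, c1, c2, c3⟩ := exists_compact_between hK hO hKO
  obtain ⟨Λ, Λ0, h0⟩ := P210Y.decay0 hg hv' c1 hO c3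
  obtain ⟨Λ', Λ1, h1⟩ := P210Y.decay hg hv' hK isOpen_interior c2 0
  refine ⟨Λ + Λ', by positivity, fun ε ε0 => ?_⟩
  obtain ⟨A₀, A0, h2⟩ := h1 (min ε (ε ^ 2)) (by positivity)
  refine ⟨A₀, A0, fun {M A b T α θ c β d} S α0 hA hM p w hw eq x hx => ?_⟩
  have m := (S.smono α0 p).monotone
  have k : ∀ x ∈ K₁, θ p = 1 → β p (w x) < -b := fun x hx e => by
    obtain ⟨y, y1, y2, y3⟩ := h0 x hx w hw
    rw [eq y y1, e] at y3
    linarith [m y2]
  obtain ⟨h3, h4, h5⟩ := h2 A hA (fun t _ => θ p * M + β p t) {t | θ p = 1 → β p t < -b} (-c p) w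
    (OrdConnected.convex ⟨fun s _ t ht u hu e => (m hu.2).trans_lt (ht e)⟩)
    (fun e => by rw [S.odd, S.rt, e]; linarith) (by rw [S.odd, S.rt]; ring)
    (fun t ht s _ => ⟨d p t, 0, (S.alt p t).resolve_right fun q => by
      linarith [ht q.1, (abs_le.1 q.2).1], by simp, by
        simpa using ((S.der p t).comp_hasFDerivAt (t, s) hasFDerivAt_fst).const_add (θ p * M)⟩)
    hw (fun x hx => ⟨k x (interior_subset hx), eq x (c3 (interior_subset hx))⟩) x hx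
  rw [sub_neg_eq_add] at h3
  exact ⟨⟨h3.trans (min_le_left _ _), Real.sqrt_le_iff.2 ⟨ε0.le, h4.trans (min_le_right _ _)⟩,
    by linarith⟩, k x (interior_subset (c2 hx))⟩

theorem dn_sq_le (hg : Met g) (w h : X → ℝ) (x : X) :
    dn g w h x ^ 2 ≤ dn g w w x * gn g h x ^ 2 := by
  have h0 := w_pos hg w x
  have h1 := iv_cs hg (df w) (df h) x
  simp only [iv_df] at h1
  rw [dn, dn, hg.gn_sq, div_pow, div_mul_eq_mul_div, div_le_div_iff₀ (by positivity) h0]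
  have h2 := mul_nonneg (hg.ip_nonneg w x) (hg.ip_nonneg h x)
  have h3 : ww g 1 w x ≤ ww g 1 w x ^ 2 := by nlinarith [GbH.one_le_ww hg 1 w x]
  exact mul_le_mul h1 h3 h0.le h2

theorem dn_prof (S : Stf M A b T α θ c β d) (hh : Smooth h) (hw : Smooth w) {p : ℝ}
    (eq : ∀ x, hv g v w x = θ p * h x + β p (w x)) (x : X) :
    dn g w (hv g v w) x = θ p * dn g w h x + d p (w x) * dn g w w x :=
  dn_lin fun i => by
    rw [funext eq, pd_add ((hh.diff x).const_mul _)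
      ((S.der p _).differentiableAt.compM (hw.diff x)), pd_const_mul,
      pd_comp (S.der p _) (hw.diff x)]

/-- the gain where the profile is small -/
theorem gain_lin (hg : Met g) (S : Stf M A b T α θ c β d) (α0 : 0 < α) (hh : Smooth h)
    (hw : Smooth w) {p : ℝ} (eq : ∀ x, hv g v w x = θ p * h x + β p (w x)) (e : θ p = 1) {η : ℝ}
    (k : -η ≤ 2 * (h x * β p (w x))) :
    h x ^ 2 - 2 * gn g h x - η ≤ hv g v w x ^ 2 + 2 * dn g w (hv g v w) x := by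
  rw [dn_prof S hh hw eq, eq, e]
  nlinarith [mul_nonneg (α0.le.trans (S.lo p (w x))) (dn_nonneg hg w x), sq_nonneg (β p (w x)),
    (abs_le.1 (abs_dn_le hg w h x)).1]

theorem gain (hg : Met g) (S : Stf M A b T α θ c β d) (α0 : 0 < α) (hh : Smooth h)
    (hw : Smooth w) {p : ℝ} (eq : ∀ x, hv g v w x = θ p * h x + β p (w x)) {η : ℝ} (η0 : 0 ≤ η)
    (A0 : 0 ≤ A) (hA : gn g h x ^ 2 ≤ 2 * A * η) (hM : |h x| ≤ M) (hb : 2 * (M * b) ≤ η) :
    min 0 (h x ^ 2 - 2 * gn g h x) - η ≤ hv g v w x ^ 2 + 2 * dn g w (hv g v w) x := by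
  rcases S.alt p (w x) with k | ⟨e, k⟩
  · rw [dn_prof S hh hw eq]
    have s0 := dn_nonneg hg w x
    have h1 := (dn_sq_le hg w h x).trans (mul_le_mul_of_nonneg_left hA s0)
    have h2 : |2 * dn g w h x| ≤ 2 * A * dn g w w x + η := abs_le_of_sq_le_sq (by
      nlinarith [sq_nonneg (2 * A * dn g w w x - η)]) (by positivity)
    have h3 : |θ p * (2 * dn g w h x)| ≤ |2 * dn g w h x| := by
      rw [abs_mul, abs_of_nonneg (S.θm p).1]
      exact mul_le_of_le_one_left (abs_nonneg _) (S.θm p).2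
    nlinarith [(abs_le.1 (h3.trans h2)).1, min_le_left 0 (h x ^ 2 - 2 * gn g h x),
      mul_le_mul_of_nonneg_right k s0, sq_nonneg (hv g v w x)]
  · have h1 : |h x * β p (w x)| ≤ M * b := by
      rw [abs_mul]; exact mul_le_mul hM k (abs_nonneg _) ((abs_nonneg _).trans hM)
    linarith [gain_lin hg S α0 hh hw eq e (η := η) (x := x) (by linarith [(abs_le.1 h1).1]),
      min_le_right 0 (h x ^ 2 - 2 * gn g h x)]

/-- the output of the move: a path of graphs `wt p` with the drifts `vt p`; the end point is the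
solution `w` where `χ = 1` -/
structure Mv (g : Fld n X) (v : Fin n → X → ℝ) (χ h : X → ℝ) (K Np Nm : Set X) (M η T α : ℝ)
    (w : X → ℝ) (wt : ℝ → X → ℝ) (vt : ℝ → Fin n → X → ℝ) : Prop where
  smw : Smooth w
  smt : ∀ p, Smooth (wt p)
  cct : ∀ p, CC ∞ (vt p)
  w0 : wt 0 = fun _ => 0
  v0 : vt 0 = v
  cvw : ∀ p ∈ Icc (0 : ℝ) 1, ∀ m, CvF (𝓝[Icc 0 1] p) p m wt
  cvv : ∀ p ∈ Icc (0 : ℝ) 1, ∀ m, CvC (𝓝[Icc 0 1] p) p m vt
  cur : ∀ p x, min (Rv g v x) (Rv g v x + h x ^ 2 - 2 * gn g h x) - η ≤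
    Rv (gb g 1 (wt p)) (vt p) x
  off : ∀ p x, (χ =ᶠ[𝓝 x] fun _ => 0) → gb g 1 (wt p) =ᶠ[𝓝 x] g ∧ ∀ i, vt p i =ᶠ[𝓝 x] v i
  one : ∀ x, (χ =ᶠ[𝓝 x] fun _ => 1) → wt 1 =ᶠ[𝓝 x] w ∧ ∀ i, vt 1 i =ᶠ[𝓝 x] vg g v w i
  bd : ∀ x, |hv g v w x| ≤ 2 * M
  eq : ∀ x, |w x| ≤ T → hv g v w x = h x + α * w x
  lo : ∀ x ∈ K, x ∈ Np → w x < -T ∧ wt 1 x < -T
  hi : ∀ x ∈ K, x ∈ Nm → T < w x ∧ T < wt 1 x
  cst : ∀ p, ∃ c, ∀ x, χ x = 0 → (x ∈ Np → wt p x = -c) ∧ (x ∈ Nm → wt p x = c)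
  fin : ∀ x, χ x = 1 → -T ≤ w x ∧ 0 ≤ h x ∨ w x ≤ T ∧ h x ≤ 0 →
    Rv g v x + h x ^ 2 - 2 * gn g h x - η ≤ Rv (gb g 1 (wt 1)) (vt 1) x

section cv

variable {ι : Type} {l : Filter ι} {o : ι} {m : ℕ} {U V : ι → X → ℝ}

theorem CvF.iw (hg : Met g) (hU : CvF l o (m + 1) U) (s : ∀ i, Smooth (U i)) :
    CvF l o m fun i x => (ww g 1 (U i) x)⁻¹ :=
  ((cvG_fix hU.le hg.sm).ww hg hU (.of_forall s)).comp (φ := fun t => t⁻¹) fun x =>
    (eventually_ne_nhds (w_pos hg _ x).ne').mono fun _ q => contDiffAt_inv ℝ q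

theorem CvF.dn (hg : Met g) (hU : CvF l o (m + 1) U) (hV : CvF l o (m + 1) V)
    (s : ∀ i, Smooth (U i)) (s' : ∀ i, Smooth (V i)) : CvF l o m fun i => dn g (U i) (V i) :=
  ((cvG_fix hU.le hg.sm).iv hg (hU.df (.of_forall s)) (hV.df (.of_forall s'))).mul (hU.iw hg s)

theorem CvF.hv (hg : Met g) (hv' : CC ∞ v) (hU : CvF l o (m + 2) U) (s : ∀ i, Smooth (U i)) :
    CvF l o m fun i => hv g v (U i) := by
  have G : ∀ k, CvG l o k fun _ => g := fun _ => cvG_fix hU.le hg.sm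
  have a := CvC.smul (hU.iw hg s) (hU.df (.of_forall s))
  have c : ∀ i, CC ∞ fun j x => (ww g 1 (U i) x)⁻¹ * P210G.df (U i) j x := fun i =>
    CC.smul (P210Y.sm_iw hg (s i)) (cc_df (s i))
  have a' := a.mono (Nat.le_succ m)
  have k := (cvF_fix hU.le (u := fun _ => (1 / 2 : ℝ)) cd_const).mul
    ((((G _).Rv a (.of_forall fun i => ⟨hg, c i⟩)).sub (cvF_fix hU.le hg.sm_scal)).add
      ((G _).iv hg a' a')) |>.sub ((G _).iv hg (cvC_fix hU.le hv') a')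
  convert k using 3 with i x
  have e : sh g (fun j x => (ww g 1 (U i) x)⁻¹ * P210G.df (U i) j x) = nv g (U i) := by
    rw [sh_smul, sh_df]; funext j y; rw [nv, div_eq_inv_mul]
  rw [Rv, iv_eq_ev g v, e, P210G.hv, Dv]
  ring

theorem fl_nv (hg : Met g) (w w' : X → ℝ) (i : Fin n) (x : X) : fl (gb g 1 w') (nv g w) i x =
    (ww g 1 w x)⁻¹ * df w i x + dn g w w' x * df w' i x := by
  have e : ∑ j, g x i j * nv g w j x = (ww g 1 w x)⁻¹ * df w i x := by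
    simp only [nv, ← mul_div_assoc, ← Finset.sum_div]
    rw [div_eq_inv_mul, df, ← hg.g_up_mul x i fun j => pd j w x]; rfl
  rw [← e, dn_eq hg, Finset.sum_mul, fl, ← Finset.sum_add_distrib]
  exact Finset.sum_congr rfl fun j _ => by simp only [gb, df, Pi.one_apply]; ring

theorem CvF.tv (hg : Met g) (hv' : CC ∞ v) (hχ : Smooth χ) (hU : CvF l o (m + 2) U)
    (hV : CvF l o (m + 2) V) (s : ∀ i, Smooth (U i)) (s' : ∀ i, Smooth (V i)) :
    CvC l o m fun i => P210T.tv g v χ (U i) (V i) := by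
  have U1 := hU.mono (Nat.le_succ _)
  have V1 := hV.mono (Nat.le_succ _)
  have f : ∀ {U : ι → X → ℝ}, CvF l o (m + 1) U → (∀ i, Smooth (U i)) → CvC l o m fun i j x =>
      (ww g 1 (U i) x)⁻¹ * P210G.df (U i) j x + Gr.dn g (U i) (V i) x * P210G.df (V i) j x :=
    fun q s =>
    (CvC.smul (q.iw hg s) (q.df (.of_forall s))).add
      (CvC.smul (q.dn hg V1 s s') (V1.df (.of_forall s')))
  have k := ((cvG_fix hU.le hg.sm).vg (cvC_fix hU.le hv') hV (.of_forall fun i => ⟨hg, s' i⟩)).add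
    ((CvC.smul ((cvF_fix hU.le (CD.pow hχ 2)).mul (hU.hv hg hv' s)) (f U1 s)).add
      (CvC.smul ((cvF_fix hU.le (u := fun _ => (-1 : ℝ)) cd_const).mul (hV.hv hg hv' s'))
        (f V1 s')))
  convert k using 4 with i j x
  simp only [← fl_nv hg, P210T.tv, fl, tx, Finset.mul_sum, ← Finset.sum_add_distrib]
  exact congrArg _ (Finset.sum_congr rfl fun _ _ => by ring)

end cv

/-- the family of solutions -/
theorem sols [CompactSpace X] (hn : 2 ≤ n) (hg : Met g) (hv' : CC ∞ v)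
    (S : Stf M A b T α θ c β d) (α0 : 0 < α) (hh : Smooth h) (hM : ∀ x, |h x| ≤ M) :
    ∃ w : ℝ → X → ℝ, (∀ p, Smooth (w p)) ∧ (∀ p x, |w p x| ≤ c p) ∧
      (∀ p x, hv g v (w p) x = θ p * h x + β p (w p x)) ∧
      ∀ p ∈ Icc (0 : ℝ) 1, ∀ m, CvF (𝓝[Icc 0 1] p) p m w := by
  have M0 : 0 ≤ M := let ⟨x⟩ : Nonempty X := inferInstance; (abs_nonneg _).trans (hM x)
  have c0 := S.c0 α0 M0
  have sm : SmHP (fun p x t (_ : ℝ) => θ p * h x + β p t) univ :=
    smHP_of (Φ := fun q => θ q.1 * q.2.1 + β q.1 q.2.2.1) hh fun _ _ _ _ _ =>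
      (((S.smθ.comp contDiff_fst).mul contDiff_snd.fst).add
        (S.smβ.comp (contDiff_fst.prodMk contDiff_snd.snd.fst))).contDiffAt
  have mono : ∀ p x, Monotone fun t => θ p * h x + β p t - α * t := fun p x s t k => by
    linarith [show β p s - α * s ≤ β p t - α * t from S.mono p k]
  choose w w1 w2 w3 using fun p => capV' (a := -c p) (b := c p) hn hg hv' (by linarith [(c0 p).1])
    α0 (sm.at p) (fun x _ _ => mono p x)
    (fun x => by rw [S.odd, S.rt]; nlinarith [(S.θm p).1, (abs_le.1 (hM x)).2])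
    fun x => by rw [S.rt]; nlinarith [(S.θm p).1, (abs_le.1 (hM x)).1]
  have q : 0 ≤ M / α := by positivity
  exact ⟨w, w1, fun p x => abs_le.2 (w2 p x), w3, fun p hp => contV (a := -(M / α)) (b := M / α)
    hn hg hv' (sub_one_lt _) (by linarith) (lt_add_one _) α0 (fun e he q _ => sm e he q trivial)
    isCompact_Icc hp (fun p _ x _ _ => (mono p x).monotoneOn _) (fun p _ => w1 p)
    (fun p _ x => ⟨by linarith [(w2 p x).1, (c0 p).2], (w2 p x).2.trans (c0 p).2⟩)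
    fun p _ => w3 p⟩

theorem conv_lt {k a b t : ℝ} (k0 : 0 ≤ k) (k1 : k ≤ 1) (ha : a < t) (hb : b < t) :
    a + k * (b - a) < t := by
  rcases le_total a b with q | q <;> nlinarith

/-- **MOVE** -/
theorem move [CompactSpace X] (hn : 2 ≤ n) (hg : Met g) (hv' : CC ∞ v) (hχ : Smooth χ)
    (χ01 : ∀ x, 0 ≤ χ x ∧ χ x ≤ 1) {K Np Nm : Set X} (hK : IsClosed K) (op : IsOpen Np)
    (om : IsOpen Nm) (dj : Disjoint Np Nm) (one : ∀ x ∉ K, χ x = 1) (cov : K ⊆ Np ∪ Nm) :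
    ∃ M₀ > (0 : ℝ), ∀ M, M₀ ≤ M → ∀ h, Smooth h → (∀ x, |h x| ≤ M) → (∀ x ∈ Np, h x = M) →
      (∀ x ∈ Nm, h x = -M) → ∀ η > (0 : ℝ), ∀ T > (0 : ℝ), ∃ α > (0 : ℝ), α * T ≤ η ∧
        ∃ w wt vt, Mv g v χ h K Np Nm M η T α w wt vt := by
  have cK : IsCompact K := hK.isCompact
  have off : ∀ x ∉ K, χ =ᶠ[𝓝 x] fun _ => 1 := fun x hx =>
    (hK.isOpen_compl.eventually_mem hx).mono one
  obtain ⟨Λp, p0, hp⟩ := side hg hv' (cK.diff om) op fun x hx => (cov hx.1).resolve_right hx.2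
  obtain ⟨Λm, m0, hm⟩ := side hg hv' (cK.diff op) om fun x hx => (cov hx.1).resolve_left hx.2
  refine ⟨Λp + Λm + 2, by positivity, fun M hM h hh hb h1 h2 η η0 T T0 => ?_⟩
  have M0 : 0 < M := by linarith
  obtain ⟨G, -, hG⟩ := P210Y.bd_cont isCompact_univ (hg.cont_gn hh.one)
  obtain ⟨δ, δ0, tl⟩ := tail hg hv' hχ χ01 cK (fun x hx => .inr (off x hx)) (Λp + Λm) (half_pos η0)
  obtain ⟨Ap, Ap0, hp⟩ := hp δ δ0
  obtain ⟨Am, Am0, hm⟩ := hm δ δ0
  obtain ⟨b, b0, b1, b2, b3⟩ : ∃ b > (0 : ℝ), b ≤ 1 ∧ b ≤ η ∧ 2 * (M * b) ≤ η / 2 := by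
    refine ⟨min 1 (η / (4 * M)), by positivity, min_le_left _ _, (min_le_right _ _).trans
      (div_le_self η0.le (by linarith)), ?_⟩
    have := mul_le_mul_of_nonneg_left (min_le_right 1 (η / (4 * M))) M0.le
    have e : M * (η / (4 * M)) = η / 4 := by field_simp
    linarith
  have G0 : 0 ≤ G ^ 2 / η := by positivity
  obtain ⟨α, α0, αT, θ, c, β, d, S⟩ := exists_stf M (A := Ap + Am + G ^ 2 / η) (by positivity) b0 T0
  obtain ⟨w, sw, bw, eq, cw⟩ := sols hn hg hv' S α0 hh hb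
  have m := fun p => (S.smono α0 p).monotone
  obtain ⟨κ, hκ⟩ : ∃ κ : ℝ → X → ℝ, κ = fun p x => -c p * (h x / M) := ⟨_, rfl⟩
  have κp : ∀ p, ∀ x ∈ Np, κ p x = -c p := fun p x hx => by simp [hκ, h1 x hx, M0.ne']
  have κm : ∀ p, ∀ x ∈ Nm, κ p x = c p := fun p x hx => by simp [hκ, h2 x hx, M0.ne']
  have κc : ∀ p, ∀ x ∈ K, κ p =ᶠ[𝓝 x] fun _ => κ p x := fun p x hx => (cov hx).elim
    (fun q => (op.eventually_mem q).mono fun y k => (κp p y k).trans (κp p x q).symm)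
    fun q => (om.eventually_mem q).mono fun y k => (κm p y k).trans (κm p x q).symm
  have sp := fun p x hx q => hp S α0 (by linarith) (by linarith) p (w p) (sw p)
    (fun x hx => by rw [eq, h1 x hx]) x ⟨hx, dj.notMem_of_mem_left q⟩
  have sn := fun p x hx q => hm S α0 (by linarith) (by linarith) p _ (CD.neg (sw p))
    (fun x hx => by rw [P210Y.hv_neg, eq, h2 x hx, S.odd]; ring) x ⟨hx, dj.notMem_of_mem_right q⟩
  have tl := fun p => tl (w p) (κ p) (sw p)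
    (fun x => (em (x ∈ K)).elim (fun q => .inr (κc p x q)) fun q => .inl (off x q))
    fun x hx => (cov hx).elim (fun q => by
      obtain ⟨⟨a1, a2, a3⟩, -⟩ := sp p x hx q
      exact ⟨by rwa [κp p x q, sub_neg_eq_add], a2, by linarith⟩) fun q => by
      obtain ⟨⟨a1, a2, a3⟩, -⟩ := sn p x hx q
      rw [P210Y.hv_neg, abs_neg] at a3
      rw [gn_of_pd (s := -1) (u' := w p) fun i => by rw [pd_neg, neg_one_mul]] at a2
      exact ⟨by rwa [κm p x q, abs_sub_comm, sub_eq_neg_add], by simpa using a2, by linarith⟩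
  have cT : -c 1 < -T := S.lt_of α0 αT T0.le (by rw [S.odd, S.rt, S.θ1]; linarith)
  have c00 : c 0 = 0 := (S.smono α0 0).injective (by rw [S.rt, S.zero, S.θ0, zero_mul])
  have w00 : w 0 = fun _ => 0 := funext fun x => abs_nonpos_iff.1 ((bw 0 x).trans c00.le)
  have t00 : (fun y => κ 0 y + χ y * (w 0 y - κ 0 y)) = fun _ => 0 := by simp [hκ, c00, w00]
  have ct : ∀ p ∈ Icc (0 : ℝ) 1, ∀ m, CvF (𝓝[Icc 0 1] p) p m
      fun p y => κ p y + χ y * (w p y - κ p y) := fun p hp m => by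
    have le := pure_le_nhdsWithin hp
    have k : CvF (𝓝[Icc 0 1] p) p m κ := hκ ▸ (cvF_par (c := fun p => -c p) le
      (S.cc.neg.continuousWithinAt)).mul (cvF_fix le (CD.div_const hh M))
    exact k.add ((cvF_fix le hχ).mul ((cw p hp m).sub k))
  have bT : ∀ t, -T ≤ t → -b ≤ β 1 t := fun t ht => not_lt.1 fun q =>
    (S.lt_of α0 αT T0.le q).not_ge ht
  refine ⟨α, α0, αT.trans b2, w 1, fun p y => κ p y + χ y * (w p y - κ p y),
    fun p => P210T.tv g v χ (w p) fun y => κ p y + χ y * (w p y - κ p y), sw 1, fun p => (tl p).1,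
    fun p => (tl p).2.1, t00, ?_, ct, fun p hp m => (cw p hp _).tv hg hv' hχ (ct p hp _) sw
      fun p => (tl p).1, fun p x => ?_, fun p x q => ?_, fun x q => ?_, fun x => ?_,
    fun x q => by rw [eq, S.θ1, one_mul, S.lin _ q], fun x hx q => ?_, fun x hx q => ?_,
    fun p => ⟨c p, fun x e => ⟨fun q => by simp [e, κp p x q], fun q => by simp [e, κm p x q]⟩⟩,
    fun x e q => ?_⟩
  · rw [t00, w00]
    funext i y
    have h0 : lw g (fun _ => 0) = fun _ => 0 := by funext y; simp [lw, ww, ip_const_left]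
    simp [P210T.tv, fl, tx, nv, gr, pd_const, vg, h0]
  · have k := gain hg S α0 hh (sw p) (eq p) (half_pos η0).le (by positivity) (x := x) (by
      have h3 := sq_le_sq' (abs_le.1 (hG x trivial)).1 (abs_le.1 (hG x trivial)).2
      have h4 : G ^ 2 / η * η = G ^ 2 := div_mul_cancel₀ _ η0.ne'
      nlinarith) (hb x) b3
    have h3 : χ x ^ 2 ≤ 1 := pow_le_one₀ (χ01 x).1 (χ01 x).2
    have h4 := min_le_left 0 (h x ^ 2 - 2 * gn g h x)
    have h5 : min (Rv g v x) (Rv g v x + h x ^ 2 - 2 * gn g h x) =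
        Rv g v x + min 0 (h x ^ 2 - 2 * gn g h x) := by rw [← min_add_add_left, add_zero, add_sub]
    nlinarith [(tl p).2.2 x, mul_le_mul_of_nonneg_left k (sq_nonneg (χ x))]
  · have e : (fun y => κ p y + χ y * (w p y - κ p y)) =ᶠ[𝓝 x] fun _ => κ p x := by
      filter_upwards [q, κc p x (by_contra fun k => zero_ne_one
        (q.self_of_nhds.symm.trans (one x k)))] with y a1 a2
      rw [a1, a2, zero_mul, add_zero]
    exact ⟨gb_const e, tv_zero q e⟩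
  · have e : (fun y => κ 1 y + χ y * (w 1 y - κ 1 y)) =ᶠ[𝓝 x] w 1 :=
      q.mono fun y a => by simp only [a]; ring
    exact ⟨e, tv_one q e⟩
  · have h3 := m 1 (abs_le.1 (bw 1 x)).1
    have h4 := m 1 (abs_le.1 (bw 1 x)).2
    rw [S.odd, S.rt, S.θ1] at h3
    rw [S.rt, S.θ1] at h4
    rw [eq, S.θ1]
    exact abs_le.2 ⟨by linarith [(abs_le.1 (hb x)).1], by linarith [(abs_le.1 (hb x)).2]⟩
  · have k := S.lt_of α0 αT T0.le ((sp 1 x hx q).2 S.θ1)
    exact ⟨k, conv_lt (χ01 x).1 (χ01 x).2 (by rwa [κp 1 x q]) k⟩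
  · have k := S.lt_of α0 αT T0.le ((sn 1 x hx q).2 S.θ1)
    have := conv_lt (χ01 x).1 (χ01 x).2 cT k
    rw [κm 1 x q]
    exact ⟨by linarith, by linarith⟩
  · have k := gain_lin hg S α0 hh (sw 1) (eq 1) S.θ1 (η := η / 2) (x := x) (by
      obtain ⟨a1, a2⟩ := abs_le.1 (hb x)
      rcases q with ⟨q1, q2⟩ | ⟨q1, q2⟩
      · nlinarith [bT _ q1]
      · have := bT _ (neg_le_neg q1)
        rw [S.odd] at this
        nlinarith)
    have := (tl 1).2.2 x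
    rw [e] at this
    linarith

end Vale.Agent.P210C
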