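import Vale.Agent.P210C.Move
import Vale.Agent.P210E.Chain
import Vale.Agent.P210Y.PathE

/-!
# P210C: the statement `P210E.MOVEc`
-/

open Filter Topology Set
open scoped ContDiff
open Vale.Agent.P366M Vale.Agent.P366M.Gr Vale.Agent.P366M.Y.C
open Vale.Agent.P210G Vale.Agent.P210T Vale.Agent.P210E

noncomputable section

namespace Vale.Agent.P210C

theorem movec {n : ℕ} (hn : 2 ≤ n) : MOVEc n := by
  intro X _ _ g v Np Nm Bp Bm K₀ K hg hv' op om cp cm sp sm hK c0 s0 cov
  by_cases dj : Disjoint Np Nm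
  swap
  · obtain ⟨x, x1, x2⟩ := not_disjoint_iff.1 dj
    exact ⟨1, fun A hA h _ _ h1 h2 => by linarith [h1 x x1, h2 x x2]⟩
  obtain ⟨χ, s, -, t, r, k⟩ := exists_cut c0.isCompact isOpen_interior s0
  obtain ⟨M₀, -, H⟩ := move hn hg hv' s r (cp.union cm) op om dj
    (fun x hx => (k x (by_contra fun q => hx (cov q))).self_of_nhds) (union_subset_union sp sm)
  refine ⟨M₀, fun A hA h hh hb h1 h2 η η0 T T0 => ?_⟩
  obtain ⟨α, α0, αT, w, wt, vt, m⟩ := H A hA h hh hb h1 h2 _ (half_pos η0) T T0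
  have val : ∀ p, Val g K (fun x => min (Rv g v x) (Rv g v x + h x ^ 2 - 2 * gn g h x) - η / 2)
      (gb g 1 (wt p), vt p) := fun p => ⟨met_g hg (m.smt p), m.cct p, up_gb g _, fun x _ => m.cur p x⟩
  have e0 : gb g 1 (wt 0) = g := funext fun x =>
    (gb_const (.of_forall (congrFun m.w0))).self_of_nhds
  have P := P210Y.pathE n X g K _ (fun p => gb g 1 (wt p)) vt hK (fun p hp => ⟨val p, fun x hx => by
    have q := m.off p x (notMem_tsupport_iff_eventuallyEq.1 fun q => hx (interior_subset (t q)))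
    simp only [e0, m.v0]
    exact ⟨q.1.self_of_nhds.symm, fun i => (q.2 i).self_of_nhds.symm⟩,
      (cvG_fix (pure_le_nhdsWithin hp) hg.sm).gb (m.cvw p hp _) (.of_forall m.smt)⟩) _ (half_pos η0)
  simp only [e0, m.v0] at P
  have e := fun x hx => m.one x (k x hx)
  have e1 := fun x hx => (e x hx).1.self_of_nhds
  have e2 := fun x hx => (hv_congr (g := g) (v := v) (e x hx).1).self_of_nhds
  obtain ⟨c, hc⟩ := m.cst 1
  have z : ∀ x ∉ K, χ x = 0 := fun x hx =>
    image_eq_zero_of_notMem_tsupport fun q => hx (interior_subset (t q))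
  exact ⟨α, α0, by linarith, wt 1, vt 1, m.smt 1, P.mono fun x _ => by linarith,
    (val 1).mono subset_rfl fun x _ => by linarith,
    fun x hx => (m.lo x (.inl hx) (sp hx)).2.le, fun x hx => (m.hi x (.inr hx) (sm hx)).2.le,
    ⟨-c, c, fun x a b => (hc x (z x b)).1 (sp a), fun x a b => (hc x (z x b)).2 (sm a)⟩,
    fun x hx i => ((e x hx).2 i).trans (vg_congr (e x hx).1 i).symm,
    fun x hx => by rw [e2 x hx]; linarith [m.bd x],
    fun x hx q => by rw [e2 x hx, e1 x hx] at *; exact m.eq x q,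
    fun x hx q => by
      rw [e1 x hx] at q
      linarith [m.fin x (k x hx).self_of_nhds q]⟩

end Vale.Agent.P210C
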