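import Mathlib

/-!
# P210C: the stiff profiles of the graph move
-/

open Filter Topology Set
open scoped ContDiff

noncomputable section

namespace Vale.Agent.P210C

theorem ramp {ι : ℝ} (h : 0 < ι) : ∃ ϱ d : ℝ → ℝ, ContDiff ℝ ∞ ϱ ∧ (∀ t, HasDerivAt ϱ (d t) t) ∧
    (∀ t, 0 ≤ d t) ∧ (∀ t, ι ≤ t → d t = 1) ∧ (∀ t ≤ 0, ϱ t = 0) ∧ ∀ t ≤ ι, ϱ t ∈ Icc 0 ι := by
  have s : ContDiff ℝ ∞ fun t => Real.smoothTransition (t / ι) :=
    Real.smoothTransition.contDiff.comp (contDiff_id.div_const _)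
  have hD : ∀ t, HasDerivAt (fun t => ∫ u in (0 : ℝ)..t, Real.smoothTransition (u / ι))
      (Real.smoothTransition (t / ι)) t := fun t =>
    (s.continuous.integral_hasStrictDerivAt _ t).hasDerivAt
  have z : ∀ t ≤ (0 : ℝ), ∫ u in (0 : ℝ)..t, Real.smoothTransition (u / ι) = 0 := fun t ht => by
    rw [intervalIntegral.integral_congr (g := fun _ => 0) fun u hu =>
      Real.smoothTransition.zero_of_nonpos (div_nonpos_of_nonpos_of_nonneg
        (by rw [uIcc_of_ge ht] at hu; exact hu.2) h.le)]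
    simp
  refine ⟨_, _, contDiff_infty_iff_deriv.2 ⟨fun t => (hD t).differentiableAt,
    by rw [funext fun t => (hD t).deriv]; exact s⟩, hD, fun t => Real.smoothTransition.nonneg _,
    fun t ht => Real.smoothTransition.one_of_one_le ((one_le_div h).2 ht), z, fun t ht => ?_⟩
  rcases le_total t 0 with k | k
  · rw [z t k]; exact ⟨le_rfl, h.le⟩
  · refine ⟨intervalIntegral.integral_nonneg k fun u _ => Real.smoothTransition.nonneg _, ?_⟩
    have := intervalIntegral.integral_mono_on (μ := MeasureTheory.volume) k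
      (s.continuous.intervalIntegrable _ _) (continuous_const.intervalIntegrable _ _)
      fun u _ => Real.smoothTransition.le_one (u / ι)
    simp only [intervalIntegral.integral_const, sub_zero, smul_eq_mul, mul_one] at this
    exact this.trans ht

/-- the root of a strongly monotone function depends continuously on the parameter -/
theorem root {F : ℝ → ℝ → ℝ} {α : ℝ} (α0 : 0 < α) (c1 : ∀ p, Continuous (F p))
    (c2 : ∀ t, Continuous fun p => F p t) (m : ∀ p, Monotone fun t => F p t - α * t) :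
    ∃ c : ℝ → ℝ, Continuous c ∧ ∀ p, F p (c p) = 0 := by
  have ex : ∀ p, ∃ t, F p t = 0 := fun p => by
    have h0 : 0 ≤ |F p 0| / α := by positivity
    have h1 := m p h0
    have h2 := m p (neg_nonpos.2 h0)
    simp only [mul_neg, mul_div_cancel₀ _ α0.ne'] at h1 h2
    exact intermediate_value_univ (-(|F p 0| / α)) (|F p 0| / α) (c1 p)
      ⟨by linarith [le_abs_self (F p 0)], by linarith [neg_abs_le (F p 0)]⟩
  choose c hc using ex
  refine ⟨c, continuous_iff_continuousAt.2 fun p₀ => tendsto_iff_dist_tendsto_zero.2 ?_, hc⟩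
  have t := ((c2 (c p₀)).abs.div_const α).tendsto p₀
  simp only [hc, abs_zero, zero_div] at t
  refine squeeze_zero (fun _ => dist_nonneg) (fun p => ?_) t
  rw [le_div_iff₀ α0, Real.dist_eq]
  rcases le_total (c p) (c p₀) with k | k
  · have := m p k
    simp only [hc] at this
    rw [abs_of_nonpos (sub_nonpos.2 k)]
    linarith [le_abs_self (F p (c p₀))]
  · have := m p k
    simp only [hc] at this
    rw [abs_of_nonneg (sub_nonneg.2 k)]
    linarith [neg_abs_le (F p (c p₀))]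

/-- the family of profiles `β p`, with the amplitudes `θ p` and the roots `c p` -/
structure Stf (M A b T α : ℝ) (θ c : ℝ → ℝ) (β d : ℝ → ℝ → ℝ) : Prop where
  smθ : ContDiff ℝ ∞ θ
  smβ : ContDiff ℝ ∞ fun q : ℝ × ℝ => β q.1 q.2
  cc : Continuous c
  der : ∀ p t, HasDerivAt (β p) (d p t) t
  lo : ∀ p t, α ≤ d p t
  mono : ∀ p, Monotone fun t => β p t - α * t
  θm : ∀ p, θ p ∈ Icc (0 : ℝ) 1
  θ0 : θ 0 = 0
  θ1 : θ 1 = 1
  odd : ∀ p t, β p (-t) = -β p t
  rt : ∀ p, β p (c p) = θ p * M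
  alt : ∀ p t, A ≤ d p t ∨ θ p = 1 ∧ |β p t| ≤ b
  lin : ∀ t, |t| ≤ T → β 1 t = α * t

theorem exists_stf (M : ℝ) {A b T : ℝ} (A0 : 0 < A) (b0 : 0 < b) (T0 : 0 < T) :
    ∃ α > (0 : ℝ), α * T ≤ b ∧ ∃ θ c β d, Stf M A b T α θ c β d := by
  obtain ⟨ι, hι⟩ : ∃ ι, ι = b / (2 * A) := ⟨_, rfl⟩
  have ι0 : 0 < ι := hι ▸ by positivity
  have e1 : A * ι = b / 2 := by rw [hι]; field_simp
  obtain ⟨α, hα⟩ : ∃ α, α = b / (2 * (T + ι)) := ⟨_, rfl⟩
  have α0 : 0 < α := hα ▸ by positivity
  have e2 : α * (T + ι) = b / 2 := by rw [hα]; field_simp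
  obtain ⟨ϱ, d, s, hd, d0, d1, z, bd⟩ := ramp ι0
  obtain ⟨τ, hτ⟩ : ∃ τ : ℝ → ℝ, τ = fun p => (T + ι) * Real.smoothTransition (2 * p - 1) - ι :=
    ⟨_, rfl⟩
  have sT : ContDiff ℝ ∞ Real.smoothTransition := Real.smoothTransition.contDiff
  have sτ : ContDiff ℝ ∞ τ := hτ ▸ by fun_prop
  have τ1 : ∀ p, τ p ≤ T := hτ ▸ fun p => by
    nlinarith [Real.smoothTransition.le_one (2 * p - 1)]
  obtain ⟨β, hβ⟩ : ∃ β : ℝ → ℝ → ℝ,
    β = fun p t => α * t + A * (ϱ (t - τ p) - ϱ (-t - τ p)) := ⟨_, rfl⟩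
  have sβ : ContDiff ℝ ∞ fun q : ℝ × ℝ => β q.1 q.2 := hβ ▸ by fun_prop
  have dβ : ∀ p t, HasDerivAt (β p) (α + A * (d (t - τ p) + d (-t - τ p))) t := hβ ▸ fun p t => by
    have h1 := (hd (t - τ p)).comp_sub_const t (τ p)
    have h2 := (hd (-t - τ p)).comp t ((hasDerivAt_neg t).sub_const (τ p))
    have := ((hasDerivAt_id t).const_mul α).add ((h1.sub h2).const_mul A)
    exact this.congr_deriv (by ring)
  have lo : ∀ p t, α ≤ α + A * (d (t - τ p) + d (-t - τ p)) := fun p t =>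
    le_add_of_nonneg_right (mul_nonneg A0.le (add_nonneg (d0 _) (d0 _)))
  have mono : ∀ p, Monotone fun t => β p t - α * t := fun p =>
    monotone_of_hasDerivAt_nonneg (fun t => (dβ p t).sub ((hasDerivAt_id t).const_mul α))
      fun t => by simpa using lo p t
  obtain ⟨c, c1, c2⟩ := root (F := fun p t => β p t - Real.smoothTransition (2 * p) * M) α0
    (fun p => by have := sβ.continuous; fun_prop) (fun t => by
      have := sβ.continuous; have := sT.continuous; fun_prop)
    fun p s t h => by linarith [show β p s - α * s ≤ β p t - α * t from mono p h]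
  have st : ∀ p t, τ p + ι ≤ |t| → A ≤ α + A * (d (t - τ p) + d (-t - τ p)) := fun p t h => by
    rcases le_abs.1 h with k | k
    · rw [d1 _ (by linarith)]; nlinarith [d0 (-t - τ p)]
    · rw [d1 (-t - τ p) (by linarith)]; nlinarith [d0 (t - τ p)]
  refine ⟨α, α0, by nlinarith, fun p => Real.smoothTransition (2 * p), c, β, _, by fun_prop, sβ, c1,
    dβ, lo, mono, fun p => ⟨Real.smoothTransition.nonneg _, Real.smoothTransition.le_one _⟩,
    by simp, Real.smoothTransition.one_of_one_le (by norm_num), fun p t => ?_,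
    fun p => sub_eq_zero.1 (c2 p), fun p t => ?_, fun t ht => ?_⟩
  · simp only [hβ, neg_neg]; ring
  · rcases le_or_gt (τ p + ι) |t| with k | k
    · exact .inl (st p t k)
    rcases le_total (2 * p) 1 with q | q
    · refine absurd k (not_lt.2 ?_)
      simp [hτ, Real.smoothTransition.zero_of_nonpos (sub_nonpos.2 q)]
    refine .inr ⟨Real.smoothTransition.one_of_one_le q, ?_⟩
    obtain ⟨k1, k2⟩ := abs_lt.1 k
    have h1 := bd (t - τ p) (by linarith)
    have h2 := bd (-t - τ p) (by linarith)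
    have h3 := τ1 p
    simp only [hβ]
    exact abs_le.2 ⟨by nlinarith [h1.1, h2.2], by nlinarith [h1.2, h2.1]⟩
  · have e : τ 1 = T := by simp [hτ, show (2 : ℝ) - 1 = 1 by norm_num]
    obtain ⟨k1, k2⟩ := abs_le.1 ht
    simp only [hβ, e, z (t - T) (by linarith), z (-t - T) (by linarith)]
    ring

end Vale.Agent.P210C
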